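import Vale.Agent.P095.Amen.Row.Elem

/-!
# P095 row element: order bounds
-/

namespace Vale.Agent.P095.Amen.Row

noncomputable section

set_option linter.unusedVariables false

variable {B F : Type} [CStarAlgebra B] [CStarAlgebra F] {n : ℕ}

theorem sum_sub_succ (R : ℕ) :
    2 * ∑ r ∈ Finset.range R, ((R - (r + 1) : ℕ) : ℝ) = (R : ℝ) * ((R : ℝ) - 1) := by
  induction R with
  | zero => simp
  | succ R ih =>
    have h : ∀ r ∈ Finset.range R, ((R + 1 - (r + 1) : ℕ) : ℝ) = ((R - (r + 1) : ℕ) : ℝ) + 1 := by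
      intro r hr
      have := Finset.mem_range.1 hr
      rw [show R + 1 - (r + 1) = R - (r + 1) + 1 by omega, Nat.cast_succ]
    rw [Finset.sum_range_succ, Finset.sum_congr rfl h, Finset.sum_add_distrib, Nat.sub_self,
      Nat.cast_zero, add_zero, mul_add, ih, Finset.sum_const, Finset.card_range, nsmul_eq_mul]
    push_cast; ring

namespace Data

variable (D : Data B F n)

theorem norm_hom_le {i : Fin n} {b : B} (h : ‖b‖ ≤ 1) : ‖D.hom i b‖ ≤ 1 :=
  (NonUnitalStarAlgHom.norm_apply_le (D.hom i) b).trans h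

theorem norm_pair {x x' : B} (hx : D.Good x) (hx' : D.Good x') : ‖star x * x'‖ ≤ 1 :=
  (norm_mul_le _ _).trans (mul_le_one₀ (by rw [norm_star]; exact hx.norm) (norm_nonneg _) hx'.norm)

/-- The kernel in terms of the mean. -/
def pker (R : ℕ) (x x' : B) : F := fejerSum R (mean fun i => D.hom i (star x * x'))

theorem star_pker (R : ℕ) (x x' : B) : star (D.pker R x x') = D.pker R x' x := by
  rw [pker, pker, fejerSum_star]
  congr 1
  simp [mean, star_smul, star_sum, ← map_star, star_mul]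

theorem norm_pker_le (R : ℕ) {x x' : B} (hx : D.Good x) (hx' : D.Good x') :
    ‖D.pker R x x'‖ ≤ (R : ℝ) ^ 2 :=
  norm_fejerSum_le R (norm_mean_le fun i => D.norm_hom_le (D.norm_pair hx hx'))

theorem norm_ker_sub_le [Nontrivial F] {R : ℕ} (hR : R ≤ n) {x x' : B} (hx : D.Good x) (hx' : D.Good x') :
    ‖D.ker R x x' - D.pker R x x'‖ ≤ 2 * (R : ℝ) ^ 4 / n := by
  rw [ker, pker, fejerSum, ← Finset.sum_sub_distrib]
  refine (norm_sum_le _ _).trans ?_
  calc ∑ r ∈ Finset.range R, ‖((R - (r + 1) : ℕ) : ℝ) •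
        meanS (fun i => D.hom i (star x * x')) (D.commF _) (r + 1) -
        ((R - (r + 1) : ℕ) : ℝ) • mean (fun i => D.hom i (star x * x')) ^ (r + 1)‖
      ≤ ∑ _r ∈ Finset.range R, (R : ℝ) * (2 * (R : ℝ) ^ 2 / n) := by
        refine Finset.sum_le_sum fun r hr => ?_
        have hr' := Finset.mem_range.1 hr
        rw [← smul_sub, norm_smul, Real.norm_of_nonneg (Nat.cast_nonneg _)]
        refine mul_le_mul (Nat.cast_le.2 (Nat.sub_le _ _)) ?_ (norm_nonneg _) (Nat.cast_nonneg _)
        refine (norm_meanS_sub_pow (fun i => D.norm_hom_le (D.norm_pair hx hx')) _ (by omega)).trans ?_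
        gcongr
        exact_mod_cast hr'
    _ = 2 * (R : ℝ) ^ 3 * R / n := by
        rw [Finset.sum_const, Finset.card_range, nsmul_eq_mul]; ring
    _ = _ := by ring

theorem big_eq_hom_mul (i : Fin n) :
    ∃ z : F, D.big D.s = D.hom i D.s * z :=
  ⟨_, (prodS_erase (hf := D.commF D.s) (Finset.mem_univ i)).symm⟩

theorem pker_diag_mul_big {R : ℕ} (hn : 0 < n) {x : B} (hx : D.Good x) :
    D.pker R x x * D.big D.s = ((R : ℝ) * ((R : ℝ) - 1) / 2) • D.big D.s := by
  set z := mean fun i => D.hom i (star x * x)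
  have hz : z * D.big D.s = D.big D.s := by
    have hi : ∀ i, D.hom i (star x * x) * D.big D.s = D.big D.s := fun i => by
      obtain ⟨w, hw⟩ := D.big_eq_hom_mul i
      rw [hw, ← mul_assoc, ← map_mul, hx.sq_x]
    simp only [z, mean, smul_mul_assoc, Finset.sum_mul, hi, Finset.sum_const, Finset.card_univ,
      Fintype.card_fin]
    rw [← Nat.cast_smul_eq_nsmul ℝ, smul_smul, inv_mul_cancel₀ (by positivity), one_smul]
  have hp : ∀ k : ℕ, z ^ k * D.big D.s = D.big D.s := fun k => by
    induction k with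
    | zero => simp
    | succ k ih => rw [pow_succ, mul_assoc, hz, ih]
  rw [pker, fejerSum, Finset.sum_mul]
  simp only [smul_mul_assoc]
  rw [Finset.sum_congr rfl fun r _ => congrArg _ (hp (r + 1)), ← Finset.sum_smul, ← sum_sub_succ]
  congr 1
  ring

theorem norm_big_le [Nontrivial F] {b : B} (hb : ‖b‖ ≤ 1) : ‖D.big b‖ ≤ 1 :=
  norm_prodS_le (fun _ => D.norm_hom_le hb) _

/-- The quadratic form, without the sandwich. -/
def form (R M : ℕ) (x : ℕ → B) (a : ℕ → ℝ) : F :=
  ∑ g ∈ Finset.range M, ∑ h ∈ Finset.range M, (a g * a h) • D.pker R (x g) (x h)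

/-- The sandwiched quadratic form. -/
def G (R M : ℕ) (x : ℕ → B) (a : ℕ → ℝ) : F := D.big D.s * D.form R M x a * D.big D.s

theorem star_form (R M : ℕ) (x : ℕ → B) (a : ℕ → ℝ) : star (D.form R M x a) = D.form R M x a := by
  rw [form, star_sum, Finset.sum_congr rfl fun g _ => star_sum _ _, Finset.sum_comm]
  refine Finset.sum_congr rfl fun g _ => Finset.sum_congr rfl fun h _ => ?_
  rw [star_smul, star_trivial, D.star_pker, mul_comm]

theorem star_G (R M : ℕ) (x : ℕ → B) (a : ℕ → ℝ) : star (D.G R M x a) = D.G R M x a := by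
  rw [G, star_mul, star_mul, D.star_form, D.star_big D.star_s, mul_assoc]

theorem norm_form_le (R M : ℕ) {x : ℕ → B} (hx : ∀ g, D.Good (x g)) (a : ℕ → ℝ) :
    ‖D.form R M x a‖ ≤ (∑ g ∈ Finset.range M, |a g|) ^ 2 * (R : ℝ) ^ 2 := by
  refine (norm_sum_le _ _).trans ((Finset.sum_le_sum fun g _ => norm_sum_le _ _).trans ?_)
  rw [sq (∑ g ∈ Finset.range M, |a g|), Finset.sum_mul_sum, Finset.sum_mul]
  refine Finset.sum_le_sum fun g _ => ?_
  rw [Finset.sum_mul]
  refine Finset.sum_le_sum fun h _ => ?_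
  rw [norm_smul, Real.norm_eq_abs, abs_mul]
  exact mul_le_mul_of_nonneg_left (D.norm_pker_le R (hx g) (hx h)) (by positivity)

/-- The symmetrised kernel, sandwiched. -/
def pair (R : ℕ) (x x' : B) : F :=
  D.big D.s * ((R : ℝ) • (1 : F) + (D.pker R x x' + star (D.pker R x x'))) * D.big D.s

theorem sum_pair (R M : ℕ) (x : ℕ → B) (a : ℕ → ℝ) :
    ∑ g ∈ Finset.range M, ∑ h ∈ Finset.range M, (a g * a h) • D.pair R (x g) (x h)
      = (2 : ℝ) • D.G R M x a
        + ((R : ℝ) * (∑ g ∈ Finset.range M, a g) ^ 2) • (D.big D.s * D.big D.s) := by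
  have h1 : ∑ g ∈ Finset.range M, ∑ h ∈ Finset.range M, (a g * a h) •
      ((R : ℝ) • (1 : F) + (D.pker R (x g) (x h) + star (D.pker R (x g) (x h))))
      = ((R : ℝ) * (∑ g ∈ Finset.range M, a g) ^ 2) • (1 : F) + (2 : ℝ) • D.form R M x a := by
    simp only [smul_add, Finset.sum_add_distrib, smul_smul, D.star_pker, ← Finset.sum_smul]
    congr 1
    · congr 1
      rw [sq, Finset.sum_mul_sum, Finset.mul_sum]
      refine Finset.sum_congr rfl fun g _ => ?_
      rw [Finset.mul_sum]
      exact Finset.sum_congr rfl fun h _ => mul_comm _ _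
    · rw [two_smul, form]
      congr 1
      rw [Finset.sum_comm]
      exact Finset.sum_congr rfl fun g _ => Finset.sum_congr rfl fun h _ => by rw [mul_comm]
  have h2 := congrArg (fun z => D.big D.s * z * D.big D.s) h1
  simp only [Finset.mul_sum, Finset.sum_mul, mul_add, add_mul, mul_smul_comm, smul_mul_assoc,
    mul_one] at h2
  rw [add_comm]
  refine Eq.trans (Finset.sum_congr rfl fun g _ => Finset.sum_congr rfl fun h _ => ?_) h2
  simp only [pair, mul_add, add_mul, mul_smul_comm, smul_mul_assoc, mul_one]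

variable [PartialOrder F] [StarOrderedRing F]

/-- The square of the big product. -/
def p2 : F := D.big D.s * D.big D.s

theorem p2_nonneg : 0 ≤ D.p2 := by
  have h := star_mul_self_nonneg (D.big D.s)
  rwa [D.star_big D.star_s] at h

theorem p2_le_one : D.p2 ≤ 1 := by
  rcases subsingleton_or_nontrivial F with h | h
  · exact le_of_eq (Subsingleton.elim _ _)
  have h1 := star_mul_le_one (D.norm_big_le D.norm_s)
  rwa [D.star_big D.star_s] at h1

theorem sandwich_le {w : F} (hw : IsSelfAdjoint w) {c : ℝ} (hc : ‖w‖ ≤ c) :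
    D.big D.s * w * D.big D.s ≤ c • D.p2 := by
  have h : w ≤ c • (1 : F) := by
    rw [← Algebra.algebraMap_eq_smul_one]
    exact hw.le_algebraMap_norm_self.trans (algebraMap_mono F hc)
  have := star_left_conjugate_le_conjugate h (D.big D.s)
  rw [D.star_big D.star_s] at this
  simpa [p2] using this

theorem pair_nonneg (R : ℕ) {x x' : B} (hx : D.Good x) (hx' : D.Good x') : 0 ≤ D.pair R x x' := by
  have := star_left_conjugate_le_conjugate
    (fejerSum_lower R (norm_mean_le fun i => D.norm_hom_le (D.norm_pair hx hx') : ‖mean fun i =>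
      D.hom i (star x * x')‖ ≤ 1)) (D.big D.s)
  rw [D.star_big D.star_s] at this
  simpa [pair, pker] using this

theorem pair_le [Nontrivial F] {R : ℕ} {x x' : B} (hx : D.Good x) (hx' : D.Good x') :
    D.pair R x x' ≤ (3 * (R : ℝ) ^ 2) • D.p2 := by
  refine D.sandwich_le ?_ ?_
  · exact ((IsSelfAdjoint.all (R : ℝ)).smul (IsSelfAdjoint.one F)).add (IsSelfAdjoint.add_star_self _)
  · refine (norm_add_le _ _).trans ?_
    refine (add_le_add le_rfl (norm_add_le _ _)).trans ?_
    rw [norm_smul, norm_one, mul_one, Real.norm_of_nonneg (Nat.cast_nonneg _), norm_star]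
    have h := D.norm_pker_le R hx hx'
    have h' : (R : ℝ) ≤ (R : ℝ) ^ 2 := by
      exact_mod_cast Nat.le_self_pow (by norm_num) R
    linarith

/-- The lower bound. -/
theorem G_lower {R M : ℕ} (hn : 0 < n) {x : ℕ → B} (hx : ∀ g, D.Good (x g)) {w : ℕ → ℝ}
    (hw : ∀ g, 0 ≤ w g) :
    ((R : ℝ) * (R * ∑ g ∈ Finset.range M, w g ^ 2 - (∑ g ∈ Finset.range M, w g) ^ 2) / 2) • D.p2
      ≤ D.G R M x w := by
  have h : ∑ g ∈ Finset.range M, ∑ h ∈ Finset.range M,
      (w g * w h * (if g = h then (R : ℝ) ^ 2 else 0)) • D.p2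
      ≤ ∑ g ∈ Finset.range M, ∑ h ∈ Finset.range M, (w g * w h) • D.pair R (x g) (x h) := by
    refine Finset.sum_le_sum fun g _ => Finset.sum_le_sum fun h _ => ?_
    rw [← smul_smul]
    refine smul_le_smul_of_nonneg_left ?_ (mul_nonneg (hw g) (hw h))
    by_cases hgh : g = h
    · subst hgh
      rw [if_pos rfl, pair, D.star_pker]
      simp only [mul_add, add_mul, mul_smul_comm, smul_mul_assoc, mul_one]
      rw [mul_assoc _ (D.pker R (x g) (x g)), D.pker_diag_mul_big hn (hx g), mul_smul_comm,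
        ← add_smul, ← add_smul]
      exact le_of_eq (by rw [p2]; congr 1; ring)
    · rw [if_neg hgh, zero_smul]
      exact D.pair_nonneg R (hx g) (hx h)
  have hl : ∑ g ∈ Finset.range M, ∑ h ∈ Finset.range M,
      (w g * w h * (if g = h then (R : ℝ) ^ 2 else 0)) • D.p2
      = ((R : ℝ) ^ 2 * ∑ g ∈ Finset.range M, w g ^ 2) • D.p2 := by
    rw [Finset.mul_sum, Finset.sum_smul]
    refine Finset.sum_congr rfl fun g hg => ?_
    rw [Finset.sum_eq_single g]
    · rw [if_pos rfl]; congr 1; ring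
    · intro h _ hne; rw [if_neg (Ne.symm hne), mul_zero, zero_smul]
    · exact fun h => absurd hg h
  rw [hl, D.sum_pair, ← sub_le_iff_le_add, p2, ← sub_smul] at h
  have h2 := smul_le_smul_of_nonneg_left h (show (0:ℝ) ≤ 1 / 2 by norm_num)
  rw [smul_smul, smul_smul] at h2
  norm_num at h2
  refine le_trans (le_of_eq ?_) h2
  rw [p2]; congr 1; ring

/-- Upper comparison by a dominating weight. -/
theorem G_le [Nontrivial F] {R M : ℕ} {x : ℕ → B} (hx : ∀ g, D.Good (x g))
    {a w b : ℕ → ℝ} {l : ℝ} (hl : 0 ≤ l) (hw : ∀ g, 0 ≤ w g) (hb : ∀ g, 0 ≤ b g)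
    (hab : ∀ g ∈ Finset.range M, |a g| ≤ l * w g + b g) :
    (2 : ℝ) • D.G R M x a ≤ (l * l) • ((2 : ℝ) • D.G R M x w) +
      (l * l * ((R : ℝ) * (∑ g ∈ Finset.range M, w g) ^ 2) +
        3 * (R : ℝ) ^ 2 * ((∑ g ∈ Finset.range M, b g) *
          (2 * (l * ∑ g ∈ Finset.range M, w g) + ∑ g ∈ Finset.range M, b g))) • D.p2 := by
  have hstep : ∑ g ∈ Finset.range M, ∑ h ∈ Finset.range M, (a g * a h) • D.pair R (x g) (x h)
      ≤ ∑ g ∈ Finset.range M, ∑ h ∈ Finset.range M,
        ((l * l) • ((w g * w h) • D.pair R (x g) (x h)) +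
          ((l * w g * b h + b g * (l * w h) + b g * b h) * (3 * (R : ℝ) ^ 2)) • D.p2) := by
    refine Finset.sum_le_sum fun g hg => Finset.sum_le_sum fun h hh => ?_
    have h0 := D.pair_nonneg R (hx g) (hx h)
    have h1 : a g * a h ≤ (l * w g + b g) * (l * w h + b h) := by
      refine (le_abs_self _).trans ?_
      rw [abs_mul]
      exact mul_le_mul (hab g hg) (hab h hh) (abs_nonneg _) (by positivity [hw g, hb g])
    refine (smul_le_smul_of_nonneg_right h1 h0).trans ?_
    rw [show (l * w g + b g) * (l * w h + b h) = l * l * (w g * w h) +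
      (l * w g * b h + b g * (l * w h) + b g * b h) by ring, add_smul, ← smul_smul]
    refine add_le_add le_rfl ?_
    rw [← smul_smul]
    exact smul_le_smul_of_nonneg_left (D.pair_le (hx g) (hx h))
      (by have := hw g; have := hw h; have := hb g; have := hb h; positivity)
  simp only [Finset.sum_add_distrib, ← Finset.smul_sum] at hstep
  rw [D.sum_pair, D.sum_pair] at hstep
  have hβ : ∑ g ∈ Finset.range M, ∑ h ∈ Finset.range M,
      ((l * w g * b h + b g * (l * w h) + b g * b h) * (3 * (R : ℝ) ^ 2)) • D.p2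
      = (3 * (R : ℝ) ^ 2 * ((∑ g ∈ Finset.range M, b g) *
          (2 * (l * ∑ g ∈ Finset.range M, w g) + ∑ g ∈ Finset.range M, b g))) • D.p2 := by
    simp only [← Finset.sum_smul, ← Finset.sum_mul]
    congr 1
    simp only [Finset.sum_add_distrib, ← Finset.mul_sum, ← Finset.sum_mul]
    ring
  rw [hβ, ← p2, smul_add (l * l), smul_smul (l * l) ((R : ℝ) * _) D.p2, add_assoc, ← add_smul] at hstep
  refine le_trans ?_ hstep
  exact le_add_of_nonneg_right (smul_nonneg (by positivity) D.p2_nonneg)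

theorem G_le_norm {R M : ℕ} {x : ℕ → B} (hx : ∀ g, D.Good (x g)) (a : ℕ → ℝ) :
    D.G R M x a ≤ ((∑ g ∈ Finset.range M, |a g|) ^ 2 * (R : ℝ) ^ 2) • D.p2 :=
  D.sandwich_le (D.star_form R M x a) (D.norm_form_le R M hx a)

/-- The square of an element is its form, up to a small error. -/
theorem square_between [Nontrivial F] {R M : ℕ} (hR : R ≤ n) {x : ℕ → B}
    (hx : ∀ g, D.Good (x g)) (a : ℕ → ℝ) :
    D.G R M x a - ((∑ g ∈ Finset.range M, |a g|) ^ 2 * (2 * (R : ℝ) ^ 4 / n)) • D.p2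
        ≤ star (D.elem R M x a) * D.elem R M x a ∧
      star (D.elem R M x a) * D.elem R M x a
        ≤ D.G R M x a + ((∑ g ∈ Finset.range M, |a g|) ^ 2 * (2 * (R : ℝ) ^ 4 / n)) • D.p2 := by
  set E := ∑ g ∈ Finset.range M, ∑ h ∈ Finset.range M,
    (a g * a h) • (D.ker R (x g) (x h) - D.pker R (x g) (x h)) with hEdef
  have hE : ‖E‖ ≤ (∑ g ∈ Finset.range M, |a g|) ^ 2 * (2 * (R : ℝ) ^ 4 / n) := by
    refine (norm_sum_le _ _).trans ((Finset.sum_le_sum fun g _ => norm_sum_le _ _).trans ?_)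
    rw [sq (∑ g ∈ Finset.range M, |a g|), Finset.sum_mul_sum, Finset.sum_mul]
    refine Finset.sum_le_sum fun g _ => ?_
    rw [Finset.sum_mul]
    refine Finset.sum_le_sum fun h _ => ?_
    rw [norm_smul, Real.norm_eq_abs, abs_mul]
    exact mul_le_mul_of_nonneg_left (D.norm_ker_sub_le hR (hx g) (hx h)) (by positivity)
  set X := star (D.elem R M x a) * D.elem R M x a - D.G R M x a with hX
  have hXE : X = D.big D.s * E * D.big D.s := by
    rw [hX, D.star_elem_mul_elem x hx a, G, form, ← sub_mul, ← mul_sub, hEdef]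
    simp only [smul_sub, Finset.sum_sub_distrib]
  have hXs : star X = X := by rw [hX, star_sub, D.star_G]; simp [star_mul]
  have hX2 : X = D.big D.s * ((1 / 2 : ℝ) • (E + star E)) * D.big D.s := by
    have h : star X = D.big D.s * star E * D.big D.s := by
      rw [hXE, star_mul, star_mul, D.star_big D.star_s, mul_assoc]
    rw [mul_smul_comm, smul_mul_assoc, mul_add, add_mul, ← hXE, ← h, hXs, ← two_smul ℝ, smul_smul]
    norm_num
  have hn2 : ‖(1 / 2 : ℝ) • (E + star E)‖ ≤
      (∑ g ∈ Finset.range M, |a g|) ^ 2 * (2 * (R : ℝ) ^ 4 / n) := by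
    rw [norm_smul, Real.norm_of_nonneg (by norm_num)]
    have := norm_add_le E (star E)
    rw [norm_star] at this
    linarith
  have hsa : IsSelfAdjoint ((1 / 2 : ℝ) • (E + star E)) :=
    (IsSelfAdjoint.all (1 / 2 : ℝ)).smul (IsSelfAdjoint.add_star_self E)
  constructor
  · have h := D.sandwich_le hsa.neg ((norm_neg _).trans_le hn2)
    rw [mul_neg, neg_mul, ← hX2, hX, neg_sub, sub_le_iff_le_add] at h
    rw [sub_le_iff_le_add]
    exact h.trans_eq (add_comm _ _)
  · have h := D.sandwich_le hsa hn2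
    rw [← hX2, hX, sub_le_iff_le_add'] at h
    exact h

end Data

end

end Vale.Agent.P095.Amen.Row
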