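import Mathlib

/-!
# P095 row element: means of products over `t`-element sets
-/

namespace Vale.Agent.P095.Amen.Row

noncomputable section

set_option linter.unusedSectionVars false

variable {F : Type} [CStarAlgebra F] {ι : Type} [DecidableEq ι]

/-- A family with pairwise commuting members. -/
abbrev Comm (f : ι → F) : Prop := Pairwise fun i j => Commute (f i) (f j)

/-- The product of a commuting family over a set. -/
def prodS (f : ι → F) (hf : Comm f) (S : Finset ι) : F :=
  S.noncommProd f fun _ _ _ _ h => hf h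

variable {f g : ι → F} {hf : Comm f} {hg : Comm g} {S : Finset ι}

theorem prodS_empty : prodS f hf ∅ = 1 := Finset.noncommProd_empty _ _

theorem prodS_insert {i : ι} (hi : i ∉ S) : prodS f hf (insert i S) = f i * prodS f hf S :=
  Finset.noncommProd_insert_of_notMem _ _ _ _ hi

theorem prodS_insert' {i : ι} (hi : i ∉ S) : prodS f hf (insert i S) = prodS f hf S * f i :=
  Finset.noncommProd_insert_of_notMem' _ _ _ _ hi

theorem prodS_erase {i : ι} (hi : i ∈ S) : f i * prodS f hf (S.erase i) = prodS f hf S :=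
  Finset.mul_noncommProd_erase S hi f _

theorem commute_prodS {y : F} (h : ∀ i ∈ S, Commute y (f i)) : Commute y (prodS f hf S) :=
  Finset.noncommProd_commute _ _ _ _ h

theorem prodS_congr (h : ∀ i ∈ S, f i = g i) : prodS f hf S = prodS g hg S :=
  Finset.noncommProd_congr rfl h _

theorem norm_prodS_le [Nontrivial F] (h : ∀ i, ‖f i‖ ≤ 1) (S : Finset ι) :
    ‖prodS f hf S‖ ≤ 1 := by
  induction S using Finset.induction_on with
  | empty => simp [prodS_empty]
  | insert i S hi ih =>
    rw [prodS_insert hi]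
    exact (norm_mul_le _ _).trans (mul_le_one₀ (h i) (norm_nonneg _) ih)

theorem prodS_mul (hgf : Pairwise fun i j => Commute (g i) (f j)) (hfg : Comm fun i => f i * g i)
    (S : Finset ι) : prodS (fun i => f i * g i) hfg S = prodS f hf S * prodS g hg S := by
  induction S using Finset.induction_on with
  | empty => simp [prodS_empty]
  | insert i S hi ih =>
    have hc : Commute (g i) (prodS f hf S) :=
      commute_prodS fun j hj => hgf (ne_of_mem_of_not_mem hj hi).symm
    rw [prodS_insert hi, prodS_insert hi, prodS_insert hi, ih]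
    calc f i * g i * (prodS f hf S * prodS g hg S)
        = f i * (g i * prodS f hf S) * prodS g hg S := by simp only [mul_assoc]
      _ = _ := by rw [hc.eq]; simp only [mul_assoc]

theorem prodS_star (hs : Comm fun i => star (f i)) (S : Finset ι) :
    star (prodS f hf S) = prodS (fun i => star (f i)) hs S := by
  induction S using Finset.induction_on with
  | empty => simp [prodS_empty]
  | insert i S hi ih => rw [prodS_insert hi, prodS_insert' hi, star_mul, ih]

theorem prodS_univ_eq_list {n : ℕ} {f : Fin n → F} {hf : Comm f} :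
    prodS f hf Finset.univ = (List.ofFn f).prod := by
  have hu : (Finset.univ : Finset (Fin n)).val.map f = (List.ofFn f : Multiset F) := by
    rw [Fin.univ_val_map]
  unfold prodS Finset.noncommProd
  simp only [hu, Multiset.noncommProd_coe]

/-- The mean of the products over the `t`-element sets. -/
def meanS {n : ℕ} (f : Fin n → F) (hf : Comm f) (t : ℕ) : F :=
  ((n.choose t : ℕ) : ℝ)⁻¹ • ∑ S ∈ Finset.powersetCard t Finset.univ, prodS f hf S

/-- The mean of a family. -/
def mean {n : ℕ} (f : Fin n → F) : F := (n : ℝ)⁻¹ • ∑ i, f i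

theorem norm_mean_le {n : ℕ} {f : Fin n → F} (h : ∀ i, ‖f i‖ ≤ 1) : ‖mean f‖ ≤ 1 := by
  rcases Nat.eq_zero_or_pos n with hn | hn
  · subst hn; simp [mean]
  · rw [mean, norm_smul, Real.norm_of_nonneg (by positivity), inv_mul_le_iff₀ (by exact_mod_cast hn)]
    refine (norm_sum_le _ _).trans ?_
    simpa using Finset.sum_le_sum fun i (_ : i ∈ Finset.univ) => h i

theorem norm_meanS_le [Nontrivial F] {n : ℕ} {f : Fin n → F} {hf : Comm f} (h : ∀ i, ‖f i‖ ≤ 1) {t : ℕ}
    (ht : t ≤ n) : ‖meanS f hf t‖ ≤ 1 := by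
  have hc : (0 : ℝ) < (n.choose t : ℕ) := by exact_mod_cast Nat.choose_pos ht
  rw [meanS, norm_smul, Real.norm_of_nonneg (by positivity), inv_mul_le_iff₀ hc]
  refine (norm_sum_le _ _).trans ?_
  refine (Finset.sum_le_sum fun S (_ : S ∈ _) => norm_prodS_le h S).trans ?_
  simp

theorem sum_insert_sets {n : ℕ} (f : Fin n → F) (hf : Comm f) (t : ℕ) :
    (∑ S ∈ Finset.powersetCard t Finset.univ, ∑ i ∈ Finset.univ \ S, prodS f hf S * f i)
      = ((t + 1 : ℕ) : ℝ) • ∑ U ∈ Finset.powersetCard (t + 1) Finset.univ, prodS f hf U := by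
  rw [Finset.smul_sum]
  have hrhs : ∀ U ∈ Finset.powersetCard (t + 1) (Finset.univ : Finset (Fin n)),
      ((t + 1 : ℕ) : ℝ) • prodS f hf U = ∑ _i ∈ U, prodS f hf U := fun U hU => by
    rw [Finset.sum_const, (Finset.mem_powersetCard.1 hU).2, Nat.cast_smul_eq_nsmul]
  rw [Finset.sum_congr rfl hrhs, Finset.sum_sigma', Finset.sum_sigma']
  refine Finset.sum_nbij' (fun x => ⟨insert x.2 x.1, x.2⟩) (fun x => ⟨x.1.erase x.2, x.2⟩)
    ?_ ?_ ?_ ?_ ?_
  · rintro ⟨S, i⟩ h
    simp only [Finset.mem_sigma, Finset.mem_powersetCard, Finset.mem_sdiff] at h ⊢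
    exact ⟨⟨Finset.subset_univ _, by rw [Finset.card_insert_of_notMem h.2.2, h.1.2]⟩,
      Finset.mem_insert_self _ _⟩
  · rintro ⟨U, i⟩ h
    simp only [Finset.mem_sigma, Finset.mem_powersetCard, Finset.mem_sdiff] at h ⊢
    exact ⟨⟨Finset.subset_univ _, by rw [Finset.card_erase_of_mem h.2, h.1.2]; omega⟩,
      Finset.mem_univ _, Finset.notMem_erase _ _⟩
  · rintro ⟨S, i⟩ h
    simp only [Finset.mem_sigma, Finset.mem_sdiff] at h
    simp [Finset.erase_insert h.2.2]
  · rintro ⟨U, i⟩ h
    simp only [Finset.mem_sigma] at h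
    simp [Finset.insert_erase h.2]
  · rintro ⟨S, i⟩ h
    simp only [Finset.mem_sigma, Finset.mem_sdiff] at h
    exact (prodS_insert' h.2.2).symm

theorem norm_meanS_sub_pow [Nontrivial F] {n : ℕ} {f : Fin n → F} {hf : Comm f}
    (h : ∀ i, ‖f i‖ ≤ 1) :
    ∀ t : ℕ, t ≤ n → ‖meanS f hf t - mean f ^ t‖ ≤ 2 * (t : ℝ) ^ 2 / n := by
  intro t
  induction t with
  | zero => intro _; simp [meanS, prodS_empty, Finset.powersetCard_zero]
  | succ t ih =>
    intro ht
    have hn : (0 : ℝ) < n := by exact_mod_cast (show 0 < n by omega)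
    have hc : (0 : ℝ) < (n.choose t : ℕ) := by exact_mod_cast Nat.choose_pos (show t ≤ n by omega)
    set E := ∑ U ∈ Finset.powersetCard (t + 1) Finset.univ, prodS f hf U with hE
    set D := ∑ S ∈ Finset.powersetCard t Finset.univ, ∑ i ∈ S, prodS f hf S * f i
    have hsplit : (∑ S ∈ Finset.powersetCard t Finset.univ, prodS f hf S) * (∑ i, f i)
        = ((t + 1 : ℕ) : ℝ) • E + D := by
      rw [hE, ← sum_insert_sets f hf t, Finset.sum_mul, ← Finset.sum_add_distrib]
      refine Finset.sum_congr rfl fun S _ => ?_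
      rw [Finset.mul_sum, ← Finset.sum_sdiff (Finset.subset_univ S)]
    have hD : ‖D‖ ≤ (n.choose t : ℝ) * t := by
      refine (norm_sum_le _ _).trans ?_
      calc ∑ S ∈ Finset.powersetCard t Finset.univ, ‖∑ i ∈ S, prodS f hf S * f i‖
          ≤ ∑ _S ∈ Finset.powersetCard t (Finset.univ : Finset (Fin n)), (t : ℝ) :=
            Finset.sum_le_sum fun S hS => by
              refine (norm_sum_le _ _).trans ?_
              refine (Finset.sum_le_sum fun i _ => (norm_mul_le _ _).trans
                (mul_le_one₀ (norm_prodS_le h S) (norm_nonneg _) (h i))).trans ?_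
              simp [(Finset.mem_powersetCard.1 hS).2]
        _ = _ := by simp
    have hchoose : ((n.choose (t + 1) : ℕ) : ℝ) * (t + 1 : ℕ) = (n.choose t : ℕ) * ((n : ℝ) - t) := by
      rw [← Nat.cast_sub (show t ≤ n by omega)]
      exact_mod_cast Nat.choose_succ_right_eq n t
    have hc' : (0 : ℝ) < (n.choose (t + 1) : ℕ) := by exact_mod_cast Nat.choose_pos ht
    have hrec : meanS f hf t * mean f = meanS f hf (t + 1) +
        (((n.choose t : ℕ) : ℝ)⁻¹ * (n : ℝ)⁻¹) • D - ((t : ℝ) / n) • meanS f hf (t + 1) := by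
      have hcoef : ((n.choose t : ℕ) : ℝ)⁻¹ * (n : ℝ)⁻¹ * (t + 1 : ℕ)
          = (1 - (t : ℝ) / n) * ((n.choose (t + 1) : ℕ) : ℝ)⁻¹ := by
        field_simp
        linarith
      have hm : (((n.choose t : ℕ) : ℝ)⁻¹ * (n : ℝ)⁻¹ * (t + 1 : ℕ)) • E
          = meanS f hf (t + 1) - ((t : ℝ) / n) • meanS f hf (t + 1) := by
        rw [hcoef, mul_smul, show ((n.choose (t + 1) : ℕ) : ℝ)⁻¹ • E = meanS f hf (t + 1) from rfl,
          sub_smul, one_smul]
      calc meanS f hf t * mean f
          = (((n.choose t : ℕ) : ℝ)⁻¹ * (n : ℝ)⁻¹) • (((t + 1 : ℕ) : ℝ) • E + D) := by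
            rw [meanS, mean, smul_mul_smul_comm, hsplit]
        _ = _ := by rw [smul_add, smul_smul, hm]; abel
    have hm1 : ‖meanS f hf (t + 1) - meanS f hf t * mean f‖ ≤ 2 * t / n := by
      rw [hrec, show meanS f hf (t + 1) - (meanS f hf (t + 1) +
        (((n.choose t : ℕ) : ℝ)⁻¹ * (n : ℝ)⁻¹) • D - ((t : ℝ) / n) • meanS f hf (t + 1))
        = ((t : ℝ) / n) • meanS f hf (t + 1) -
          (((n.choose t : ℕ) : ℝ)⁻¹ * (n : ℝ)⁻¹) • D by abel]
      refine (norm_sub_le _ _).trans ?_
      rw [norm_smul, norm_smul, Real.norm_of_nonneg (by positivity),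
        Real.norm_of_nonneg (by positivity)]
      have h1 := mul_le_of_le_one_right (show (0:ℝ) ≤ (t:ℝ) / n by positivity)
        (norm_meanS_le (hf := hf) h ht)
      have h2 : ((n.choose t : ℕ) : ℝ)⁻¹ * (n : ℝ)⁻¹ * ‖D‖ ≤ (t : ℝ) / n := by
        refine (mul_le_mul_of_nonneg_left hD (by positivity)).trans_eq ?_
        field_simp
      have h3 : 2 * (t : ℝ) / n = (t : ℝ) / n + t / n := by ring
      linarith
    have hm2 : ‖(meanS f hf t - mean f ^ t) * mean f‖ ≤ 2 * (t : ℝ) ^ 2 / n :=
      (norm_mul_le _ _).trans ((mul_le_of_le_one_right (norm_nonneg _) (norm_mean_le h)).trans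
        (ih (by omega)))
    calc ‖meanS f hf (t + 1) - mean f ^ (t + 1)‖
        = ‖(meanS f hf (t + 1) - meanS f hf t * mean f) + (meanS f hf t - mean f ^ t) * mean f‖ := by
          congr 1; rw [sub_mul, pow_succ]; abel
      _ ≤ 2 * t / n + 2 * (t : ℝ) ^ 2 / n := (norm_add_le _ _).trans (add_le_add hm1 hm2)
      _ ≤ _ := by
          rw [← add_div, div_le_div_iff_of_pos_right hn]; push_cast; nlinarith

end

end Vale.Agent.P095.Amen.Row
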