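import Vale.Agent.P095.Amen.Row.Fejer
import Vale.Agent.P095.Amen.Row.Combi

/-!
# P095 row element: the element and its square
-/

namespace Vale.Agent.P095.Amen.Row

noncomputable section

/-- Commuting copies of `B`, two units, and the marks. -/
structure Data (B F : Type) [CStarAlgebra B] [CStarAlgebra F] (n : ℕ) where
  hom : Fin n → B →⋆ₐ[ℂ] F
  comm : ∀ i j, i ≠ j → ∀ a b, Commute (hom i a) (hom j b)
  s : B
  s' : B
  e : B
  U : Fin n → F
  star_s : star s = s
  star_s' : star s' = s'
  norm_s : ‖s‖ ≤ 1
  norm_s' : ‖s'‖ ≤ 1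
  comm_ss' : Commute s s'
  s'_s : s' * s = s
  U_s : ∀ i j, Commute (U i) (hom j s)
  U_s' : ∀ i j, Commute (U i) (hom j s')
  U_e : ∀ i, star (U i) * (U i * hom i e) = hom i e

variable {B F : Type} [CStarAlgebra B] [CStarAlgebra F] {n : ℕ}

namespace Data

variable (D : Data B F n)

/-- A vector of the bank. -/
structure Good (x : B) : Prop where
  norm : ‖x‖ ≤ 1
  s'_x : D.s' * x = 0
  e_x : D.e * x = x
  sq_x : star x * x * D.s = D.s

theorem commF (b : B) : Comm fun i => D.hom i b := fun i j h => D.comm i j h b b

/-- The product over all banks. -/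
def big (b : B) : F := prodS (fun i => D.hom i b) (D.commF b) Finset.univ

/-- The product over a set of banks. -/
def part (b : B) (S : Finset (Fin n)) : F := prodS (fun i => D.hom i b) (D.commF b) S

/-- The mark of a set. -/
def head (S : Finset (Fin n)) : F := if h : S.Nonempty then D.U (S.min' h) else 0

/-- One summand. -/
def term (x : B) (S : Finset (Fin n)) : F := D.head S * D.part x S * D.big D.s

theorem star_big {b : B} (hb : star b = b) : star (D.big b) = D.big b := by
  have hc : Comm fun i => star (D.hom i b) := fun i j h => by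
    simpa [← map_star] using D.comm i j h (star b) (star b)
  rw [big, prodS_star hc]
  exact prodS_congr fun i _ => by rw [← map_star, hb]

theorem part_mul_part (a b : B) (S : Finset (Fin n)) :
    D.part (a * b) S = D.part a S * D.part b S := by
  rw [part, part, part, ← prodS_mul (fun i j h => D.comm i j h b a)
    (fun i j h => by simpa [← map_mul] using D.comm i j h (a * b) (a * b))]
  exact prodS_congr fun i _ => map_mul _ _ _

theorem big_s_s' : D.big D.s * D.big D.s' = D.big D.s := by
  show D.part D.s Finset.univ * D.part D.s' Finset.univ = _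
  rw [← part_mul_part, D.comm_ss'.eq, D.s'_s]; rfl

theorem commute_part (a : B) {i : Fin n} (b : B) {S : Finset (Fin n)} (hi : i ∉ S) :
    Commute (D.hom i a) (D.part b S) :=
  commute_prodS fun j hj => D.comm i j (ne_of_mem_of_not_mem hj hi).symm a b

theorem s'_big (i : Fin n) : D.hom i D.s' * D.big D.s = D.big D.s := by
  have h : D.hom i D.s * prodS (fun k => D.hom k D.s) (D.commF D.s) (Finset.univ.erase i)
      = D.big D.s := prodS_erase (hf := D.commF D.s) (Finset.mem_univ i)
  rw [← h, ← mul_assoc, ← map_mul, D.s'_s]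

theorem s'_part {x : B} (hx : D.Good x) {i : Fin n} {S : Finset (Fin n)} (hi : i ∈ S) :
    D.hom i D.s' * D.part x S = 0 := by
  rw [part, ← prodS_erase (hf := D.commF x) hi, ← mul_assoc, ← map_mul, hx.s'_x, map_zero, zero_mul]

theorem e_part {x : B} (hx : D.Good x) {i : Fin n} {S : Finset (Fin n)} (hi : i ∈ S) :
    D.hom i D.e * D.part x S = D.part x S := by
  rw [part, ← prodS_erase (hf := D.commF x) hi, ← mul_assoc, ← map_mul, hx.e_x]

theorem head_s' (S : Finset (Fin n)) (j : Fin n) : Commute (D.head S) (D.hom j D.s') := by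
  unfold head; split_ifs
  · exact D.U_s' _ _
  · exact Commute.zero_left _

theorem star_head_s' (S : Finset (Fin n)) (j : Fin n) :
    Commute (star (D.head S)) (D.hom j D.s') := by
  have h := (D.head_s' S j).star_star
  rwa [← map_star, D.star_s'] at h

theorem star_term_mul_self {x x' : B} (hx' : D.Good x') {S : Finset (Fin n)}
    (hS : S.Nonempty) :
    star (D.term x S) * D.term x' S
      = D.big D.s * (star (D.part x S) * D.part x' S) * D.big D.s := by
  have hm := S.min'_mem hS
  have hU : star (D.head S) * (D.head S * D.part x' S) = D.part x' S := by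
    rw [head, dif_pos hS]
    conv_lhs => rw [← D.e_part hx' hm]
    rw [← mul_assoc (D.U _), ← mul_assoc, D.U_e, D.e_part hx' hm]
  rw [term, term, star_mul, star_mul, D.star_big D.star_s]
  calc D.big D.s * (star (D.part x S) * star (D.head S)) * (D.head S * D.part x' S * D.big D.s)
      = D.big D.s * (star (D.part x S) * (star (D.head S) * (D.head S * D.part x' S))) * D.big D.s := by
        simp only [mul_assoc]
    _ = _ := by rw [hU]

theorem star_term_mul_eq_zero_of {x x' : B} (hx : D.Good x) {S S' : Finset (Fin n)} {i : Fin n}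
    (hi : i ∈ S) (hi' : i ∉ S') : star (D.term x S) * D.term x' S' = 0 := by
  have h0 : star (D.part x S) * D.hom i D.s' = 0 := by
    have h := congrArg star (D.s'_part hx hi)
    rwa [star_mul, ← map_star, D.star_s', star_zero] at h
  have h1 : D.head S' * D.part x' S' * D.big D.s
      = D.hom i D.s' * (D.head S' * D.part x' S' * D.big D.s) := by
    conv_rhs => rw [← mul_assoc, ← mul_assoc, ← (D.head_s' S' i).eq, mul_assoc (D.head S'),
      (D.commute_part D.s' x' hi').eq, ← mul_assoc, mul_assoc _ (D.hom i D.s'), D.s'_big]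
  rw [term, term, h1, star_mul, star_mul]
  calc star (D.big D.s) * (star (D.part x S) * star (D.head S)) *
        (D.hom i D.s' * (D.head S' * D.part x' S' * D.big D.s))
      = star (D.big D.s) * (star (D.part x S) * (star (D.head S) * D.hom i D.s')) *
        (D.head S' * D.part x' S' * D.big D.s) := by simp only [mul_assoc]
    _ = star (D.big D.s) * (star (D.part x S) * D.hom i D.s' * star (D.head S)) *
        (D.head S' * D.part x' S' * D.big D.s) := by
          rw [(D.star_head_s' S i).eq, ← mul_assoc (star (D.part x S))]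
    _ = 0 := by rw [h0]; simp

theorem star_term_mul_eq_zero {x x' : B} (hx : D.Good x) (hx' : D.Good x') {S S' : Finset (Fin n)}
    (h : S ≠ S') : star (D.term x S) * D.term x' S' = 0 := by
  by_cases hss : S ⊆ S'
  · obtain ⟨i, hi', hi⟩ := Finset.not_subset.1 fun h' => h (Finset.Subset.antisymm hss h')
    have := congrArg star (D.star_term_mul_eq_zero_of (x' := x) hx' hi' hi)
    rwa [star_mul, star_star, star_zero] at this
  · obtain ⟨i, hi, hi'⟩ := Finset.not_subset.1 hss
    exact D.star_term_mul_eq_zero_of hx hi hi'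

/-- The weight of a `t`-element set. -/
def coef (n R t : ℕ) : ℝ := Real.sqrt (((R - t : ℕ) : ℝ) / (n.choose t : ℕ))

/-- All terms of a point. -/
def row (R : ℕ) (x : B) : F :=
  ∑ r ∈ Finset.range R, ∑ S ∈ Finset.powersetCard (r + 1) Finset.univ,
    coef n R (r + 1) • D.term x S

/-- The element of a weight vector. -/
def elem (R M : ℕ) (x : ℕ → B) (a : ℕ → ℝ) : F := ∑ g ∈ Finset.range M, a g • D.row R (x g)

theorem commZ (z : B) : Comm fun i => D.hom i z := D.commF z

/-- The kernel of two points. -/
def ker (R : ℕ) (x x' : B) : F :=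
  ∑ r ∈ Finset.range R, ((R - (r + 1) : ℕ) : ℝ) •
    meanS (fun i => D.hom i (star x * x')) (D.commF _) (r + 1)

theorem star_row_mul_row {R : ℕ} (x x' : B) (hx : D.Good x) (hx' : D.Good x') :
    star (D.row R x) * D.row R x' = D.big D.s * D.ker R x x' * D.big D.s := by
  have hpart : ∀ S : Finset (Fin n), star (D.part x S) * D.part x' S
      = D.part (star x * x') S := fun S => by
    have hc : Comm fun i => star (D.hom i x) := fun i j h => by
      simpa [← map_star] using D.comm i j h (star x) (star x)
    rw [part_mul_part, part, prodS_star hc]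
    congr 1
    exact prodS_congr fun i _ => (map_star _ _).symm
  rw [ker, Finset.mul_sum, Finset.sum_mul, row, star_sum, Finset.sum_mul]
  refine Finset.sum_congr rfl fun r hr => ?_
  rw [meanS, Finset.smul_sum, Finset.smul_sum, Finset.mul_sum, Finset.sum_mul, star_sum,
    Finset.sum_mul]
  refine Finset.sum_congr rfl fun S hS => ?_
  have hcard := (Finset.mem_powersetCard.1 hS).2
  have hne : S.Nonempty := Finset.card_pos.1 (by omega)
  rw [row, Finset.mul_sum, Finset.sum_eq_single r, Finset.mul_sum, Finset.sum_eq_single S,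
    star_smul, star_trivial, smul_mul_smul_comm, D.star_term_mul_self hx' hne, hpart, coef,
    Real.mul_self_sqrt (by positivity), smul_smul, mul_smul_comm, smul_mul_assoc, div_eq_mul_inv]
  · rfl
  · intro S' _ hne'
    rw [star_smul, smul_mul_smul_comm, D.star_term_mul_eq_zero hx hx' (Ne.symm hne'), smul_zero]
  · exact fun h => absurd hS h
  · intro r' _ hne'
    rw [Finset.mul_sum]
    refine Finset.sum_eq_zero fun S' hS' => ?_
    rw [star_smul, smul_mul_smul_comm, D.star_term_mul_eq_zero hx hx', smul_zero]
    intro h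
    have h' := (Finset.mem_powersetCard.1 hS').2
    rw [← h] at h'
    omega
  · exact fun h => absurd hr h

theorem star_elem_mul_elem {R M : ℕ} (x : ℕ → B) (hx : ∀ g, D.Good (x g)) (a : ℕ → ℝ) :
    star (D.elem R M x a) * D.elem R M x a = D.big D.s *
      (∑ g ∈ Finset.range M, ∑ h ∈ Finset.range M, (a g * a h) • D.ker R (x g) (x h)) * D.big D.s := by
  rw [elem, star_sum, Finset.sum_mul, Finset.mul_sum, Finset.sum_mul]
  refine Finset.sum_congr rfl fun g _ => ?_
  rw [Finset.mul_sum, Finset.mul_sum, Finset.sum_mul]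
  refine Finset.sum_congr rfl fun h _ => ?_
  rw [star_smul, star_trivial, smul_mul_smul_comm]
  rw [D.star_row_mul_row _ _ (hx g) (hx h), mul_smul_comm, smul_mul_assoc]

theorem elem_big_s' {R M : ℕ} (x : ℕ → B) (a : ℕ → ℝ) :
    D.elem R M x a * D.big D.s' = D.elem R M x a := by
  simp only [elem, row, term, Finset.sum_mul, smul_mul_assoc, mul_assoc, D.big_s_s']

theorem big_s'_elem {R M : ℕ} {x : ℕ → B} (hx : ∀ g, D.Good (x g)) (a : ℕ → ℝ) :
    D.big D.s' * D.elem R M x a = 0 := by
  simp only [elem, row, Finset.mul_sum, mul_smul_comm]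
  refine Finset.sum_eq_zero fun g _ => ?_
  rw [Finset.sum_eq_zero, smul_zero]
  intro r _
  refine Finset.sum_eq_zero fun S hS => ?_
  obtain ⟨i, hi⟩ : S.Nonempty := Finset.card_pos.1 (by rw [(Finset.mem_powersetCard.1 hS).2]; omega)
  have hc : Commute (D.head S) (D.big D.s') := commute_prodS fun j _ => D.head_s' S j
  have h0 : D.big D.s' * D.part (x g) S = 0 := by
    have hci : Commute (D.hom i D.s') (prodS (fun k => D.hom k D.s') (D.commF D.s') (Finset.univ.erase i)) :=
      D.commute_part D.s' D.s' (Finset.notMem_erase i _)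
    rw [big, ← prodS_erase (hf := D.commF D.s') (Finset.mem_univ i), hci.eq, mul_assoc,
      D.s'_part (hx g) hi, mul_zero]
  rw [term, ← mul_assoc, ← mul_assoc, ← hc.eq, mul_assoc (D.head S), h0]
  simp

theorem fix_elem {R M : ℕ} {x : ℕ → B} (hx : ∀ g, D.Good (x g)) (a : ℕ → ℝ) {P : F}
    (hP : ∀ i, P * (D.U i * D.hom i D.e) = D.U i * D.hom i D.e) :
    P * D.elem R M x a = D.elem R M x a := by
  simp only [elem, row, Finset.mul_sum, mul_smul_comm]
  refine Finset.sum_congr rfl fun g _ => ?_
  refine congrArg _ (Finset.sum_congr rfl fun r _ => Finset.sum_congr rfl fun S hS => congrArg _ ?_)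
  have hne : S.Nonempty := Finset.card_pos.1 (by rw [(Finset.mem_powersetCard.1 hS).2]; omega)
  have hm := S.min'_mem hne
  have h : P * (D.head S * D.part (x g) S) = D.head S * D.part (x g) S := by
    rw [head, dif_pos hne]
    conv_lhs => rw [← D.e_part (hx g) hm]
    rw [← mul_assoc (D.U _), ← mul_assoc, hP, mul_assoc, D.e_part (hx g) hm]
  rw [term, ← mul_assoc, h]

end Data

end

end Vale.Agent.P095.Amen.Row
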