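import Mathlib

/-!
# P095 row element: Fejér's inequality for contractions
-/

namespace Vale.Agent.P095.Amen.Row

noncomputable section

variable {F : Type} [CStarAlgebra F]

/-- `∑_{1 ≤ t < R} (R - t) z^t`. -/
def fejerSum (R : ℕ) (z : F) : F := ∑ r ∈ Finset.range R, ((R - (r + 1) : ℕ) : ℝ) • z ^ (r + 1)

theorem fejerSum_star (R : ℕ) (z : F) : star (fejerSum R z) = fejerSum R (star z) := by
  simp [fejerSum, star_sum, star_smul, star_pow]

theorem norm_fejerSum_le (R : ℕ) {z : F} (hz : ‖z‖ ≤ 1) : ‖fejerSum R z‖ ≤ (R : ℝ) ^ 2 := by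
  refine (norm_sum_le _ _).trans ?_
  calc ∑ r ∈ Finset.range R, ‖((R - (r + 1) : ℕ) : ℝ) • z ^ (r + 1)‖
      ≤ ∑ _r ∈ Finset.range R, (R : ℝ) := Finset.sum_le_sum fun r _ => by
        rw [norm_smul, Real.norm_of_nonneg (Nat.cast_nonneg _)]
        refine (mul_le_mul (Nat.cast_le.2 (Nat.sub_le _ _)) ?_ (norm_nonneg _)
          (Nat.cast_nonneg _)).trans_eq (mul_one _)
        exact (norm_pow_le' z (Nat.succ_pos r)).trans (pow_le_one₀ (norm_nonneg _) hz)
    _ = (R : ℝ) ^ 2 := by simp [sq]

theorem fejerSum_eq (R : ℕ) (z : F) :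
    ∑ j ∈ Finset.range R, ∑ i ∈ Finset.range (j + 1), z ^ i
      = (R : ℝ) • (1 : F) + fejerSum R z := by
  induction R with
  | zero => simp [fejerSum]
  | succ R ih =>
    have h : fejerSum (R + 1) z = fejerSum R z + ∑ r ∈ Finset.range R, z ^ (r + 1) := by
      rw [fejerSum, fejerSum, Finset.sum_range_succ, ← Finset.sum_add_distrib]
      simp only [Nat.sub_self, Nat.cast_zero, zero_smul, add_zero]
      refine Finset.sum_congr rfl fun r hr => ?_
      have hr' := Finset.mem_range.1 hr
      rw [show R + 1 - (r + 1) = R - (r + 1) + 1 by omega, Nat.cast_succ, add_smul, one_smul]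
    rw [Finset.sum_range_succ, ih, Finset.sum_range_succ' (fun i => z ^ i), h, Nat.cast_succ,
      add_smul, one_smul, pow_zero]
    abel

variable [PartialOrder F] [StarOrderedRing F]

theorem star_mul_le_one {z : F} (hz : ‖z‖ ≤ 1) : star z * z ≤ 1 := by
  refine (IsSelfAdjoint.star_mul_self z).le_algebraMap_norm_self.trans ?_
  rw [CStarRing.norm_star_mul_self, ← map_one (algebraMap ℝ F)]
  refine algebraMap_mono F ?_
  nlinarith [norm_nonneg z]

/-- `2 Re ∑_{t<R} (R - t) z^t ≥ -R`. -/
theorem fejerSum_lower (R : ℕ) {z : F} (hz : ‖z‖ ≤ 1) :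
    0 ≤ (R : ℝ) • (1 : F) + (fejerSum R z + star (fejerSum R z)) := by
  set S : ℕ → F := fun j => ∑ i ∈ Finset.range j, z ^ i
  have key : ∀ j, star (S j) * S j ≤ ∑ k ∈ Finset.range j, (S (k + 1) + star (S (k + 1)) - 1) := by
    intro j
    induction j with
    | zero => simp [S]
    | succ j ih =>
      rw [Finset.sum_range_succ]
      have hS : S (j + 1) = 1 + z * S j := by
        simp only [S]; rw [geom_sum_succ, add_comm]
      have hc : star (S j) * (star z * z) * S j ≤ star (S j) * S j := by
        simpa using star_left_conjugate_le_conjugate (star_mul_le_one hz) (S j)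
      calc star (S (j + 1)) * S (j + 1)
          = star (S j) * (star z * z) * S j + (S (j + 1) + star (S (j + 1)) - 1) := by
            rw [hS, star_add, star_one, star_mul]; noncomm_ring
        _ ≤ _ := add_le_add (hc.trans ih) le_rfl
  have h := (star_mul_self_nonneg (S R)).trans (key R)
  rw [Finset.sum_sub_distrib, Finset.sum_add_distrib, ← star_sum, fejerSum_eq] at h
  simp only [star_add, star_smul, star_one, star_trivial, Finset.sum_const, Finset.card_range] at h
  refine h.trans_eq ?_
  rw [← Nat.cast_smul_eq_nsmul ℝ]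
  abel

end

end Vale.Agent.P095.Amen.Row
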