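import Mathlib

/-!
# P095 row element: the bounded transform
-/

namespace Vale.Agent.P095.Amen.Row

noncomputable section

set_option linter.unusedVariables false

variable {F : Type} [CStarAlgebra F]

/-- `(1 + a)^(-1/2)` for positive `a`. -/
def isr (a : F) : F := cfc (fun t : ℝ => (Real.sqrt (max (1 + t) 1))⁻¹) a

/-- `y (1 + y*y)^(-1/2)`. -/
def nrm (y : F) : F := y * isr (star y * y)

/-- The root of `1 + a` for positive `a`. -/
def sr (a : F) : F := cfc (fun t : ℝ => Real.sqrt (max (1 + t) 1)) a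

theorem continuous_sr : Continuous fun t : ℝ => Real.sqrt (max (1 + t) 1) := by fun_prop

theorem sr_pos (t : ℝ) : 0 < Real.sqrt (max (1 + t) 1) :=
  Real.sqrt_pos.2 (lt_of_lt_of_le one_pos (le_max_right _ _))

theorem continuous_isr : Continuous fun t : ℝ => (Real.sqrt (max (1 + t) 1))⁻¹ :=
  continuous_sr.inv₀ fun t => (sr_pos t).ne'

theorem isr_mul_sr {a : F} (ha : IsSelfAdjoint a) : isr a * sr a = 1 := by
  rw [isr, sr, ← cfc_mul _ _ a continuous_isr.continuousOn continuous_sr.continuousOn]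
  simp only [inv_mul_cancel₀ (sr_pos _).ne']
  exact cfc_const_one ℝ a

theorem sr_mul_isr {a : F} (ha : IsSelfAdjoint a) : sr a * isr a = 1 := by
  rw [isr, sr, ← cfc_mul _ _ a continuous_sr.continuousOn continuous_isr.continuousOn]
  simp only [mul_inv_cancel₀ (sr_pos _).ne']
  exact cfc_const_one ℝ a

theorem isr_commute {a P : F} (h : Commute a P) : Commute (isr a) P := h.cfc_real _

theorem isr_star (a : F) : star (isr a) = isr a := (cfc_predicate _ a : IsSelfAdjoint _).star_eq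

variable [PartialOrder F] [StarOrderedRing F]

theorem norm_le_of_between {x : F} (hx : IsSelfAdjoint x) {c : ℝ} (hc : 0 ≤ c)
    (hlo : -(c • (1 : F)) ≤ x) (hhi : x ≤ c • (1 : F)) : ‖x‖ ≤ c := by
  rw [← cfc_id ℝ x]
  refine norm_cfc_le hc fun t ht => ?_
  rw [← Algebra.algebraMap_eq_smul_one] at hlo hhi
  rw [← map_neg] at hlo
  rw [id, Real.norm_eq_abs, abs_le]
  exact ⟨(algebraMap_le_iff_le_spectrum hx).1 hlo t ht, (le_algebraMap_iff_spectrum_le hx).1 hhi t ht⟩

theorem sr_nonneg (a : F) : 0 ≤ sr a := cfc_nonneg fun t _ => Real.sqrt_nonneg _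

theorem isr_nonneg (a : F) : 0 ≤ isr a := cfc_nonneg fun t _ => inv_nonneg.2 (Real.sqrt_nonneg _)

theorem isr_le_one (a : F) : isr a ≤ 1 :=
  cfc_le_one _ a fun t _ => inv_le_one_of_one_le₀ (Real.one_le_sqrt.2 (le_max_right _ _))

theorem norm_isr_le (a : F) : ‖isr a‖ ≤ 1 := by
  rcases subsingleton_or_nontrivial F with h | h
  · simp [Subsingleton.elim (isr a) 0]
  · exact (CStarAlgebra.norm_le_norm_of_nonneg_of_le (isr_nonneg a) (isr_le_one a)).trans norm_one.le

theorem sr_mul_self {a : F} (ha : 0 ≤ a) : sr a * sr a = 1 + a := by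
  rw [sr, ← cfc_mul _ _ a continuous_sr.continuousOn continuous_sr.continuousOn]
  have he : (spectrum ℝ a).EqOn (fun t => Real.sqrt (max (1 + t) 1) * Real.sqrt (max (1 + t) 1))
      fun t => 1 + t := fun t ht => by
    have h0 := spectrum_nonneg_of_nonneg ha ht
    simp only [Real.mul_self_sqrt (le_max_of_le_right zero_le_one)]
    exact max_eq_left (by linarith)
  rw [cfc_congr he, cfc_const_add (1 : ℝ) (fun t => t) a, cfc_id' ℝ a, map_one]

theorem sqrt_one_add {a : F} (ha : 0 ≤ a) : CFC.sqrt (1 + a) = sr a :=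
  CFC.sqrt_unique (sr_mul_self ha) (sr_nonneg a)

theorem isr_le_smul {a b : F} (ha : 0 ≤ a) (hb : 0 ≤ b) {k : ℝ} (hk : 0 < k)
    (h : 1 + b ≤ (k * k) • (1 + a)) : isr a ≤ k • isr b := by
  have hs : sr b ≤ k • sr a := by
    have hr : CFC.sqrt ((k * k) • (1 + a)) = k • sr a :=
      CFC.sqrt_unique (by rw [smul_mul_smul_comm, sr_mul_self ha])
        (smul_nonneg hk.le (sr_nonneg a))
    rw [← sqrt_one_add hb, ← hr]
    exact CFC.sqrt_le_sqrt _ _ h
  have hsa := IsSelfAdjoint.of_nonneg ha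
  have hsb := IsSelfAdjoint.of_nonneg hb
  let ub : Fˣ := ⟨sr b, isr b, sr_mul_isr hsb, isr_mul_sr hsb⟩
  let ua : Fˣ := ⟨k • sr a, k⁻¹ • isr a,
    by rw [smul_mul_smul_comm, sr_mul_isr hsa, mul_inv_cancel₀ hk.ne', one_smul],
    by rw [smul_mul_smul_comm, isr_mul_sr hsa, inv_mul_cancel₀ hk.ne', one_smul]⟩
  have h' : k⁻¹ • isr a ≤ isr b := CStarAlgebra.inv_le_inv (a := ub) (b := ua) (sr_nonneg b) hs
  simpa [smul_smul, mul_inv_cancel₀ hk.ne'] using smul_le_smul_of_nonneg_left h' hk.le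

theorem star_add_mul_add_le (u v : F) {η : ℝ} (hη : 0 < η) :
    star (u + v) * (u + v) ≤ (1 + η) • (star u * u) + (1 + η⁻¹) • (star v * v) := by
  have h := star_mul_self_nonneg (Real.sqrt η • u - Real.sqrt η⁻¹ • v)
  have h1 : Real.sqrt η * Real.sqrt η⁻¹ = 1 := by
    rw [← Real.sqrt_mul hη.le, mul_inv_cancel₀ hη.ne', Real.sqrt_one]
  rw [star_sub, star_smul, star_smul, star_trivial (Real.sqrt η), star_trivial (Real.sqrt η⁻¹), sub_mul, mul_sub, mul_sub,
    smul_mul_smul_comm, smul_mul_smul_comm, smul_mul_smul_comm, smul_mul_smul_comm,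
    Real.mul_self_sqrt hη.le, Real.mul_self_sqrt (inv_nonneg.2 hη.le), h1,
    mul_comm (Real.sqrt η⁻¹), h1, one_smul, one_smul] at h
  rw [← sub_nonneg]
  refine h.trans_eq ?_
  rw [star_add, add_mul, mul_add, mul_add, add_smul, add_smul, one_smul, one_smul]
  abel

theorem isr_conj {a : F} (ha : 0 ≤ a) : isr a * a * isr a = 1 - isr a * isr a := by
  have hsa := IsSelfAdjoint.of_nonneg ha
  have h : isr a * (1 + a) * isr a = 1 := by
    rw [← sr_mul_self ha, ← mul_assoc, isr_mul_sr hsa, one_mul, sr_mul_isr hsa]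
  rw [mul_add, add_mul, mul_one] at h
  rw [eq_sub_iff_add_eq, add_comm]; exact h

theorem star_nrm_mul_nrm (y : F) :
    star (nrm y) * nrm y = 1 - isr (star y * y) * isr (star y * y) := by
  rw [nrm, star_mul, isr_star, ← isr_conj (star_mul_self_nonneg y)]
  simp only [mul_assoc]

theorem norm_nrm_le (y : F) : ‖nrm y‖ ≤ 1 := by
  rcases subsingleton_or_nontrivial F with h | h
  · simp [Subsingleton.elim (nrm y) 0]
  have hle : star (nrm y) * nrm y ≤ 1 := by
    rw [star_nrm_mul_nrm, sub_le_self_iff]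
    have h2 := star_mul_self_nonneg (isr (star y * y))
    rwa [isr_star] at h2
  have h2 := CStarAlgebra.norm_le_norm_of_nonneg_of_le (star_mul_self_nonneg _) hle
  rw [CStarRing.norm_star_mul_self, norm_one] at h2
  nlinarith [norm_nonneg (nrm y)]

theorem half_le_star_nrm_mul_nrm (y : F) {c : F} (hc0 : 0 ≤ c) (hc1 : c ≤ 1)
    (hc : c ≤ star y * y) : (1 / 2 : ℝ) • c ≤ star (nrm y) * nrm y := by
  set a := star y * y
  have ha : 0 ≤ a := star_mul_self_nonneg y
  rw [star_nrm_mul_nrm]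
  let u : ∀ x : F, 0 ≤ x → Fˣ := fun x hx => ⟨1 + x, isr x * isr x,
    by rw [← sr_mul_self hx, mul_assoc, ← mul_assoc (sr x) (isr x), sr_mul_isr (.of_nonneg hx),
      one_mul, sr_mul_isr (.of_nonneg hx)],
    by rw [← sr_mul_self hx, mul_assoc, ← mul_assoc (isr x) (sr x), isr_mul_sr (.of_nonneg hx),
      one_mul, isr_mul_sr (.of_nonneg hx)]⟩
  have h1 : isr a * isr a ≤ isr c * isr c :=
    CStarAlgebra.inv_le_inv (a := u c hc0) (b := u a ha) (add_nonneg zero_le_one hc0)
      (add_le_add (le_refl (1 : F)) hc)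
  refine le_trans ?_ (sub_le_sub_left h1 1)
  rw [← isr_conj hc0]
  have hs := IsSelfAdjoint.of_nonneg hc0
  conv_lhs => rw [← cfc_id' ℝ c hs, ← cfc_smul (1 / 2 : ℝ) (fun t : ℝ => t) c]
  conv_rhs => arg 1; arg 2; rw [← cfc_id' ℝ c hs]
  rw [isr, ← cfc_mul _ _ c continuous_isr.continuousOn (continuousOn_id' _),
    ← cfc_mul (fun t : ℝ => (Real.sqrt (max (1 + t) 1))⁻¹ * t) _ c
      (continuous_isr.mul continuous_id').continuousOn continuous_isr.continuousOn]
  have hcont : Continuous fun t : ℝ => (Real.sqrt (max (1 + t) 1))⁻¹ * t * (Real.sqrt (max (1 + t) 1))⁻¹ :=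
    (continuous_isr.mul continuous_id).mul continuous_isr
  refine cfc_mono (fun t ht => ?_) (by fun_prop) hcont.continuousOn
  have ht0 := spectrum_nonneg_of_nonneg hc0 ht
  have ht1 : t ≤ 1 := by
    rw [← map_one (algebraMap ℝ F)] at hc1
    exact (le_algebraMap_iff_spectrum_le hs).1 hc1 t ht
  have hh : (Real.sqrt (1 + t))⁻¹ * t * (Real.sqrt (1 + t))⁻¹ = t / (1 + t) := by
    rw [mul_comm _ t, mul_assoc, ← mul_inv, Real.mul_self_sqrt (by linarith), div_eq_mul_inv]
  rw [max_eq_left (by linarith : (1:ℝ) ≤ 1 + t), smul_eq_mul, hh, le_div_iff₀ (by linarith)]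
  nlinarith

theorem norm_nrm_sub_le {y y' : F} {η B : ℝ} (hη : 0 < η) (hη' : η ≤ 1 / 4)
    (hy : ‖y‖ ≤ B) (hy' : ‖y'‖ ≤ B)
    (hd : star (y' - y) * (y' - y) ≤ (η * η) • (1 + star y * y)) :
    ‖nrm y' - nrm y‖ ≤ η * (1 + 9 * B) := by
  set a := star y * y with ha'
  set a' := star y' * y' with ha''
  have ha : 0 ≤ a := star_mul_self_nonneg y
  have hb : 0 ≤ a' := star_mul_self_nonneg y'
  have hk0 : 0 < 1 + 8 * η := by linarith
  have hmono : ∀ {c d : ℝ}, c ≤ d → ∀ {z : F}, 0 ≤ z → c • z ≤ d • z := fun h _ hz =>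
    smul_le_smul_of_nonneg_right h hz
  have hscale : (1 + η⁻¹) * (η * η) = η * η + η := by field_simp
  have hdd : (1 + η⁻¹) • (star (y' - y) * (y' - y)) ≤ (η * η + η) • (1 + a) := by
    rw [← hscale, ← smul_smul]
    exact smul_le_smul_of_nonneg_left hd (by positivity)
  have hup : 1 + a' ≤ ((1 + 8 * η) * (1 + 8 * η)) • (1 + a) := by
    have h := star_add_mul_add_le y (y' - y) hη
    rw [add_sub_cancel] at h
    have h' : a' ≤ (1 + η) • a + (η * η + η) • (1 + a) := h.trans (add_le_add le_rfl hdd)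
    refine (add_le_add (le_refl (1 : F)) h').trans ?_
    refine le_trans ?_ (hmono (show 1 + η + (η * η + η) ≤ (1 + 8 * η) * (1 + 8 * η) by nlinarith)
      (add_nonneg zero_le_one ha))
    rw [add_smul (1 + η) (η * η + η), ← add_assoc, smul_add (1 + η)]
    gcongr
    simpa using hmono (show (1:ℝ) ≤ 1 + η by linarith) (zero_le_one (α := F))
  have hdown : 1 + a ≤ ((1 + 8 * η) * (1 + 8 * η)) • (1 + a') := by
    have h := star_add_mul_add_le y' (-(y' - y)) hη
    rw [← sub_eq_add_neg, sub_sub_cancel, star_neg, neg_mul_neg] at h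
    have h' : a ≤ (1 + η) • a' + (η * η + η) • (1 + a) := h.trans (add_le_add le_rfl hdd)
    have hq : 0 < 1 - (η * η + η) := by nlinarith
    have h'' : (1 - (η * η + η)) • (1 + a) ≤ (1 + η) • (1 + a') := by
      rw [sub_smul, one_smul, sub_le_iff_le_add, smul_add (1 + η), add_assoc]
      refine add_le_add ?_ h'
      simpa using hmono (show (1:ℝ) ≤ 1 + η by linarith) (zero_le_one (α := F))
    have h3 := smul_le_smul_of_nonneg_left h'' (inv_nonneg.2 hq.le)
    rw [smul_smul, inv_mul_cancel₀ hq.ne', one_smul, smul_smul] at h3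
    refine h3.trans (hmono ?_ (add_nonneg zero_le_one hb))
    rw [inv_mul_le_iff₀ hq]
    nlinarith [mul_le_mul_of_nonneg_right hη' (by positivity : (0:ℝ) ≤ η * η),
      mul_le_mul_of_nonneg_right hη' hη.le]
  have hf : ‖isr a' - isr a‖ ≤ 8 * η := by
    refine norm_le_of_between ((IsSelfAdjoint.of_nonneg (isr_nonneg a')).sub (IsSelfAdjoint.of_nonneg (isr_nonneg a))) (by positivity) ?_ ?_
    · rw [neg_le, neg_sub]
      refine (sub_le_sub_right (isr_le_smul ha hb hk0 hup) _).trans ?_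
      rw [add_smul, one_smul, add_sub_cancel_left]
      exact smul_le_smul_of_nonneg_left (isr_le_one a') (by positivity)
    · refine (sub_le_sub_right (isr_le_smul hb ha hk0 hdown) _).trans ?_
      rw [add_smul, one_smul, add_sub_cancel_left]
      exact smul_le_smul_of_nonneg_left (isr_le_one a) (by positivity)
  have hdn : ‖y' - y‖ ≤ η * (1 + B) := by
    rcases subsingleton_or_nontrivial F with h | h
    · rw [Subsingleton.elim (y' - y) 0, norm_zero]
      nlinarith [norm_nonneg y]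
    have h2 := CStarAlgebra.norm_le_norm_of_nonneg_of_le (star_mul_self_nonneg _) hd
    rw [norm_smul, CStarRing.norm_star_mul_self, Real.norm_of_nonneg (by positivity)] at h2
    have h3 : ‖(1 : F) + a‖ ≤ 1 + B * B := by
      refine (norm_add_le _ _).trans ?_
      rw [norm_one, ha', CStarRing.norm_star_mul_self]
      exact add_le_add le_rfl (mul_le_mul hy hy (norm_nonneg _) ((norm_nonneg y).trans hy))
    have hB : 0 ≤ B := (norm_nonneg y).trans hy
    have h4 := h2.trans (mul_le_mul_of_nonneg_left h3 (by positivity))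
    refine (mul_self_le_mul_self_iff (norm_nonneg _) (by positivity)).2 (h4.trans ?_)
    nlinarith [mul_nonneg (mul_nonneg hη.le hη.le) hB]
  have e : nrm y' - nrm y = (y' - y) * isr a + y' * (isr a' - isr a) := by
    rw [nrm, nrm, ← ha', ← ha'']; noncomm_ring
  rw [e]
  refine (norm_add_le _ _).trans ?_
  have hB : 0 ≤ B := (norm_nonneg y).trans hy
  have h1 := (norm_mul_le (y' - y) (isr a)).trans
    (mul_le_mul hdn (norm_isr_le a) (norm_nonneg _) (by positivity))
  have h2 := (norm_mul_le y' (isr a' - isr a)).trans (mul_le_mul hy' hf (norm_nonneg _) hB)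
  nlinarith

end

end Vale.Agent.P095.Amen.Row
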