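import Mathlib

/-!
# P095 row element: the weights
-/

namespace Vale.Agent.P095.Amen.Row

noncomputable section

set_option linter.unusedVariables false

/-- The ratio. -/
def qW (N : ℕ) : ℝ := 1 - (N : ℝ)⁻¹

/-- Exponential weights centred at `N²`. -/
def wt (N g : ℕ) : ℝ :=
  if g ≤ 2 * (N * N) then qW N ^ (if g ≤ N * N then N * N - g else g - N * N) else 0

/-- The shifted weights. -/
def wt' (N g : ℕ) : ℝ := if g = 0 then 0 else wt N (g - 1)

/-- The two ends. -/
def endW (N g : ℕ) : ℝ := if g = 0 ∨ g = 2 * (N * N) + 1 then qW N ^ (N * N) else 0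

variable {N : ℕ}

theorem qW_bounds (hN : 2 ≤ N) : 1 / 2 ≤ qW N ∧ qW N < 1 := by
  have h : (2 : ℝ) ≤ N := by exact_mod_cast hN
  have h1 : (N : ℝ)⁻¹ ≤ 1 / 2 := by rw [inv_le_comm₀ (by positivity) (by norm_num)]; linarith
  have h2 : (0 : ℝ) < (N : ℝ)⁻¹ := by positivity
  unfold qW
  constructor <;> linarith

theorem wt_nonneg (hN : 2 ≤ N) (g : ℕ) : 0 ≤ wt N g := by
  have := (qW_bounds hN).1
  unfold wt; split_ifs <;> positivity

theorem endW_nonneg (hN : 2 ≤ N) (g : ℕ) : 0 ≤ endW N g := by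
  have := (qW_bounds hN).1
  unfold endW; split_ifs <;> positivity

theorem geom_bound (hN : 2 ≤ N) (m : ℕ) : ∑ k ∈ Finset.range m, qW N ^ k ≤ N := by
  obtain ⟨h1, h2⟩ := qW_bounds hN
  have h : (∑ k ∈ Finset.range m, qW N ^ k) * (1 - qW N) = 1 - qW N ^ m := geom_sum_mul_neg _ _
  have h3 : (1 - qW N) = (N : ℝ)⁻¹ := by simp [qW]
  rw [h3] at h
  have h4 : (∑ k ∈ Finset.range m, qW N ^ k) = (1 - qW N ^ m) * N := by
    rw [← h, mul_assoc, inv_mul_cancel₀ (by positivity), mul_one]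
  rw [h4]
  exact mul_le_of_le_one_left (Nat.cast_nonneg _) (by
    have : 0 ≤ qW N ^ m := by positivity
    linarith)

theorem pow_end_le (hN : 2 ≤ N) : qW N ^ (N * N) ≤ (N : ℝ)⁻¹ := by
  obtain ⟨h1, h2⟩ := qW_bounds hN
  have hN' : (2 : ℝ) ≤ N := by exact_mod_cast hN
  have hb := one_add_mul_le_pow (show (-2 : ℝ) ≤ ((N : ℝ) - 1)⁻¹ from
    le_trans (by norm_num) (inv_nonneg.2 (by linarith : (0:ℝ) ≤ (N : ℝ) - 1))) (N * N)
  have hinv : 1 + ((N : ℝ) - 1)⁻¹ = (qW N)⁻¹ := by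
    have h0 : (N : ℝ) - 1 ≠ 0 := by linarith
    unfold qW
    field_simp
    ring
  rw [hinv, inv_pow] at hb
  have hge : (N : ℝ) ≤ 1 + ((N * N : ℕ) : ℝ) * ((N : ℝ) - 1)⁻¹ := by
    push_cast
    have h5 : (N : ℝ) ≤ (N : ℝ) * N * ((N : ℝ) - 1)⁻¹ := by
      rw [← div_eq_mul_inv, le_div_iff₀ (by linarith)]; nlinarith
    linarith
  exact (le_inv_comm₀ (by positivity) (pow_pos (by linarith) _)).1 (hge.trans hb)

theorem sum_split (f : ℕ → ℝ) (L : ℕ) :
    ∑ g ∈ Finset.range (2 * L + 2), f g =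
      ∑ g ∈ Finset.range (L + 1), f g + ∑ k ∈ Finset.range (L + 1), f (L + 1 + k) := by
  rw [show 2 * L + 2 = (L + 1) + (L + 1) by ring, Finset.sum_range_add]

theorem sum_low (N m : ℕ) (hm : m = 1 ∨ m = 2) :
    ∑ g ∈ Finset.range (N * N + 1), wt N g ^ m = ∑ k ∈ Finset.range (N * N + 1), qW N ^ (k * m) := by
  rw [← Finset.sum_range_reflect (fun k => qW N ^ (k * m))]
  refine Finset.sum_congr rfl fun g hg => ?_
  have := Finset.mem_range.1 hg
  rw [wt, if_pos (by omega), if_pos (by omega), ← pow_mul,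
    show N * N + 1 - 1 - g = N * N - g by omega]

theorem sum_wt_le (hN : 2 ≤ N) : ∑ g ∈ Finset.range (2 * (N * N) + 2), wt N g ≤ 2 * N := by
  have h1 := sum_low N 1 (Or.inl rfl)
  simp only [pow_one, mul_one] at h1
  rw [sum_split, h1]
  have h2 : ∑ k ∈ Finset.range (N * N + 1), wt N (N * N + 1 + k)
      ≤ ∑ k ∈ Finset.range (N * N + 1), qW N ^ k := by
    refine Finset.sum_le_sum fun k _ => ?_
    obtain ⟨h1, h2⟩ := qW_bounds hN
    unfold wt
    split_ifs with ha hb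
    · omega
    · exact pow_le_pow_of_le_one (by linarith) h2.le (by omega)
    · positivity
  linarith [geom_bound hN (N * N + 1)]

theorem le_sum_wt_sq (hN : 2 ≤ N) :
    (N : ℝ) / 4 ≤ ∑ g ∈ Finset.range (2 * (N * N) + 2), wt N g ^ 2 := by
  obtain ⟨h1, h2⟩ := qW_bounds hN
  rw [sum_split, sum_low N 2 (Or.inr rfl)]
  refine le_add_of_le_of_nonneg ?_ (Finset.sum_nonneg fun k _ => by positivity)
  have hN' : (2 : ℝ) ≤ N := by exact_mod_cast hN
  set S := ∑ k ∈ Finset.range (N * N + 1), qW N ^ (k * 2)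
  have h : S * (1 - qW N ^ 2) = 1 - (qW N ^ 2) ^ (N * N + 1) := by
    rw [← geom_sum_mul_neg (qW N ^ 2)]
    congr 1
    exact Finset.sum_congr rfl fun k _ => by rw [← pow_mul, mul_comm]
  have hp : (qW N ^ 2) ^ (N * N + 1) ≤ 1 / 2 := by
    rw [← pow_mul]
    refine ((pow_le_pow_of_le_one (by linarith) h2.le (by omega : N * N ≤ 2 * (N * N + 1))).trans
      (pow_end_le hN)).trans ?_
    rw [inv_le_comm₀ (by positivity) (by norm_num)]; linarith
  have hq : 1 - qW N ^ 2 ≤ 2 / N := by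
    have e : 1 - qW N ^ 2 = 2 / (N : ℝ) - ((N : ℝ)⁻¹) ^ 2 := by unfold qW; field_simp; ring
    nlinarith [sq_nonneg ((N : ℝ)⁻¹)]
  have hS : 0 ≤ S := Finset.sum_nonneg fun k _ => pow_nonneg (by linarith) _
  have h3 : 1 / 2 ≤ S * (2 / N) := by nlinarith
  rw [mul_div_assoc', le_div_iff₀ (by positivity)] at h3
  linarith

theorem sum_endW_le (hN : 2 ≤ N) : ∑ g ∈ Finset.range (2 * (N * N) + 2), endW N g ≤ 2 / N := by
  have h0 : (0 : ℝ) ≤ qW N ^ (N * N) := pow_nonneg (by linarith [(qW_bounds hN).1]) _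
  calc ∑ g ∈ Finset.range (2 * (N * N) + 2), endW N g
      = ∑ g ∈ ({0, 2 * (N * N) + 1} : Finset ℕ), endW N g := by
        refine (Finset.sum_subset ?_ ?_).symm
        · intro g hg
          simp only [Finset.mem_insert, Finset.mem_singleton] at hg
          rw [Finset.mem_range]; omega
        · intro g _ hg
          simp only [Finset.mem_insert, Finset.mem_singleton] at hg
          rw [endW, if_neg hg]
    _ = 2 * qW N ^ (N * N) := by
        rw [Finset.sum_pair (by omega), endW, endW, if_pos (Or.inl rfl), if_pos (Or.inr rfl)]; ring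
    _ ≤ _ := by
        rw [div_eq_mul_inv]; exact mul_le_mul_of_nonneg_left (pow_end_le hN) (by norm_num)

theorem wt_diff (hN : 2 ≤ N) {g : ℕ} (hg : g ∈ Finset.range (2 * (N * N) + 2)) :
    |wt' N g - wt N g| ≤ 2 / N * wt N g + endW N g := by
  obtain ⟨h1, h2⟩ := qW_bounds hN
  have hw := wt_nonneg hN g
  have hN0 : (0 : ℝ) < (N : ℝ)⁻¹ := by positivity
  have hq : (N : ℝ)⁻¹ = 1 - qW N := by simp [qW]
  rw [div_eq_mul_inv]
  rcases Nat.eq_zero_or_pos g with h0 | h0
  · subst h0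
    rw [wt', if_pos rfl, endW, if_pos (Or.inl rfl), zero_sub, abs_neg, abs_of_nonneg hw]
    have : wt N 0 = qW N ^ (N * N) := by simp [wt]
    nlinarith
  have hgR := Finset.mem_range.1 hg
  rw [wt', if_neg (by omega)]
  by_cases hlast : g = 2 * (N * N) + 1
  · subst hlast
    rw [endW, if_pos (Or.inr rfl)]
    have e1 : wt N (2 * (N * N) + 1) = 0 := by rw [wt, if_neg (by omega)]
    have e2 : wt N (2 * (N * N) + 1 - 1) = qW N ^ (N * N) := by
      have h4 : 4 ≤ N * N := Nat.mul_le_mul hN hN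
      rw [Nat.add_sub_cancel, wt, if_pos le_rfl, if_neg (by omega),
        show 2 * (N * N) - N * N = N * N by omega]
    rw [e1, e2, sub_zero, abs_of_nonneg (pow_nonneg (by linarith) _)]
    simp
  rw [endW, if_neg (by omega), add_zero, wt, wt, if_pos (show g - 1 ≤ 2 * (N * N) by omega),
    if_pos (show g ≤ 2 * (N * N) by omega)]
  by_cases hL : g ≤ N * N
  · rw [if_pos (by omega), if_pos hL, show N * N - (g - 1) = N * N - g + 1 by omega, pow_succ,
      abs_sub_comm, abs_of_nonneg (by nlinarith [pow_nonneg (show (0:ℝ) ≤ qW N by linarith) (N * N - g)])]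
    nlinarith [pow_nonneg (show (0:ℝ) ≤ qW N by linarith) (N * N - g)]
  · have hp := pow_nonneg (show (0:ℝ) ≤ qW N by linarith) (g - 1 - N * N)
    have e : (if g - 1 ≤ N * N then N * N - (g - 1) else g - 1 - N * N) = g - 1 - N * N := by
      split_ifs <;> omega
    rw [e, if_neg hL, show g - N * N = g - 1 - N * N + 1 by omega, pow_succ,
      abs_of_nonneg (by nlinarith), hq]
    nlinarith [mul_nonneg hp (mul_nonneg (sub_nonneg.2 h2.le) (show (0:ℝ) ≤ 2 * qW N - 1 by linarith))]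

end

end Vale.Agent.P095.Amen.Row
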