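import Vale.Agent.P095.Amen.Targets
import Vale.Agent.P095.Amen.Row.Bound
import Vale.Agent.P095.Amen.Row.Normalise
import Vale.Agent.P095.Amen.Row.Weights

/-!
# P095: the row element (`RowTarget`)
-/

namespace Vale.Agent.P095.Amen

open Vale.Agent.P101.KR Vale.Agent.P095.Amen.Row

noncomputable section

variable {F : Type} [CStarAlgebra F]

theorem map_real_smul (σ : F ≃⋆ₐ[ℂ] F) (c : ℝ) (z : F) : σ (c • z) = c • σ z := by
  rw [← Complex.coe_smul, map_smul, Complex.coe_smul]

theorem map_prodS {n : ℕ} (σ : F ≃⋆ₐ[ℂ] F) {f g : Fin n → F} (hf : Row.Comm f) (hg : Row.Comm g)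
    (h : ∀ i, σ (f i) = g i) (S : Finset (Fin n)) : σ (prodS f hf S) = prodS g hg S := by
  induction S using Finset.induction_on with
  | empty => rw [prodS_empty, prodS_empty, map_one]
  | insert i S hi ih => rw [prodS_insert hi, prodS_insert hi, map_mul, ih, h]

theorem map_nrm (σ : F ≃⋆ₐ[ℂ] F) (y : F) : σ (nrm y) = nrm (σ y) := by
  have h : σ (cfc (fun t : ℝ => (Real.sqrt (max (1 + t) 1))⁻¹) (star y * y)) =
      cfc (fun t : ℝ => (Real.sqrt (max (1 + t) 1))⁻¹) (σ (star y * y)) :=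
    StarAlgHomClass.map_cfc σ _ _ Row.continuous_isr.continuousOn
      (StarAlgEquiv.isometry σ).continuous (IsSelfAdjoint.star_mul_self y)
      ((IsSelfAdjoint.star_mul_self y).map σ)
  rw [map_mul, map_star] at h
  rw [nrm, nrm, map_mul, isr, isr, h]

theorem isr_mem (u : Set F) {a : F} (ha : a ∈ Cl u) : isr a ∈ Cl u :=
  have : IsClosed (Cl u : Set F) := isClosed_Cl u
  cfc_mem _ ha

theorem prodS_mem {n : ℕ} (A : StarSubalgebra ℂ F) {f : Fin n → F} (hf : Row.Comm f)
    (h : ∀ i, f i ∈ A) (S : Finset (Fin n)) : prodS f hf S ∈ A := by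
  induction S using Finset.induction_on with
  | empty => rw [prodS_empty]; exact one_mem A
  | insert i S hi ih => rw [prodS_insert hi]; exact mul_mem (h i) ih

variable [PartialOrder F] [StarOrderedRing F] [Nontrivial F] {B : Type} [CStarAlgebra B] {n : ℕ}

/-- Numerical part: the bounds on the normalised quadratic forms. -/
theorem row_bounds (D : Row.Data B F n) {x : ℕ → B} (hx : ∀ g, D.Good (x g)) {N : ℕ} (hN : 2 ≤ N)
    (hn : 100 * (24 * N) ^ 4 ≤ n) :
    let R := 24 * N
    let M := 2 * (N * N) + 2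
    let κ := Real.sqrt (2 / ((R : ℝ) * (N : ℝ) ^ 2))
    let y := κ • D.elem R M x (wt N)
    let d := κ • D.elem R M x fun g => wt' N g - wt N g
    D.p2 ≤ star y * y ∧ ‖y‖ ≤ 15 * Real.sqrt N ∧
      star d * d ≤ ((39 / (N : ℝ)) * (39 / (N : ℝ))) • (1 + star y * y) := by
  intro R M κ y d
  have hN' : (2 : ℝ) ≤ N := by exact_mod_cast hN
  have hR : (R : ℝ) = 24 * N := by simp [R]
  have hRn : R ≤ n := le_trans ((Nat.le_self_pow (by norm_num) R).trans
    (Nat.le_mul_of_pos_left (R ^ 4) (by norm_num : 0 < 100))) hn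
  have hn0 : 0 < n := by have : 0 < R := by simp [R]; omega
                         omega
  have hnR : (100 : ℝ) * (R : ℝ) ^ 4 ≤ n := by exact_mod_cast hn
  have hs1 : ∑ g ∈ Finset.range M, wt N g ≤ 2 * N := sum_wt_le hN
  have hs0 : 0 ≤ ∑ g ∈ Finset.range M, wt N g := Finset.sum_nonneg fun g _ => wt_nonneg hN g
  have hs2 : (N : ℝ) / 4 ≤ ∑ g ∈ Finset.range M, wt N g ^ 2 := le_sum_wt_sq hN
  have hb1 : ∑ g ∈ Finset.range M, endW N g ≤ 2 / N := sum_endW_le hN
  have hb0 : 0 ≤ ∑ g ∈ Finset.range M, endW N g := Finset.sum_nonneg fun g _ => endW_nonneg hN g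
  have habsw : ∑ g ∈ Finset.range M, |wt N g| = ∑ g ∈ Finset.range M, wt N g :=
    Finset.sum_congr rfl fun g _ => abs_of_nonneg (wt_nonneg hN g)
  have hdsum : ∑ g ∈ Finset.range M, |wt' N g - wt N g| ≤ 6 := by
    refine (Finset.sum_le_sum fun g hg => wt_diff hN hg).trans ?_
    rw [Finset.sum_add_distrib, ← Finset.mul_sum]
    have h1 : 2 / (N : ℝ) * ∑ g ∈ Finset.range M, wt N g ≤ 4 :=
      (mul_le_mul_of_nonneg_left hs1 (by positivity)).trans_eq (by field_simp; ring)
    have h2 : 2 / (N : ℝ) ≤ 1 := by rw [div_le_one (by linarith)]; linarith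
    linarith
  obtain ⟨hw_lo, hw_hi⟩ := D.square_between hRn hx (wt N) (M := M)
  obtain ⟨-, hd_hi⟩ := D.square_between hRn hx (fun g => wt' N g - wt N g) (M := M)
  rw [habsw] at hw_lo hw_hi
  set GW := D.G R M x (wt N)
  set YW := star (D.elem R M x (wt N)) * D.elem R M x (wt N)
  have hp2 := D.p2_nonneg
  have hmono : ∀ {a b : ℝ}, a ≤ b → a • D.p2 ≤ b • D.p2 := fun h =>
    smul_le_smul_of_nonneg_right h hp2
  have hk : κ * κ = 2 / ((R : ℝ) * (N : ℝ) ^ 2) := Real.mul_self_sqrt (by positivity)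
  have hRpos : (0 : ℝ) < R := by rw [hR]; linarith
  have hn' : (0 : ℝ) < n := by exact_mod_cast hn0
  have heq : ∀ z : F, star (κ • z) * (κ • z) = (κ * κ) • (star z * z) := fun z => by
    rw [star_smul, star_trivial, smul_mul_smul_comm]
  have herr : (∑ g ∈ Finset.range M, wt N g) ^ 2 * (2 * (R : ℝ) ^ 4 / n) ≤ (N : ℝ) ^ 2 / 12 := by
    have h1 : 2 * (R : ℝ) ^ 4 / n ≤ 1 / 50 := by
      rw [div_le_iff₀ hn']; linarith
    have h2 : (∑ g ∈ Finset.range M, wt N g) ^ 2 ≤ (2 * N) ^ 2 := pow_le_pow_left₀ hs0 hs1 2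
    calc _ ≤ (2 * (N : ℝ)) ^ 2 * (1 / 50) := mul_le_mul h2 h1 (by positivity) (by positivity)
      _ ≤ _ := by nlinarith
  have hlow : ((R : ℝ) * (N : ℝ) ^ 2) • D.p2 ≤ GW := by
    refine le_trans (hmono ?_) (D.G_lower hn0 hx (wt_nonneg hN))
    have h2 : (∑ g ∈ Finset.range M, wt N g) ^ 2 ≤ (2 * N) ^ 2 := pow_le_pow_left₀ hs0 hs1 2
    have h3 : 6 * (N : ℝ) ^ 2 ≤ (R : ℝ) * ∑ g ∈ Finset.range M, wt N g ^ 2 := by
      rw [hR]; nlinarith
    rw [mul_div_assoc]
    refine mul_le_mul_of_nonneg_left ?_ hRpos.le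
    linarith
  refine ⟨?_, ?_, ?_⟩
  · rw [heq, hk]
    have h : ((R : ℝ) * (N : ℝ) ^ 2 / 2) • D.p2 ≤ YW := by
      refine le_trans ?_ hw_lo
      rw [le_sub_iff_add_le, ← add_smul]
      refine le_trans (hmono ?_) hlow
      have : (N : ℝ) ^ 2 / 12 ≤ (R : ℝ) * (N : ℝ) ^ 2 / 2 := by rw [hR]; nlinarith
      linarith
    have h2 := smul_le_smul_of_nonneg_left h (show (0:ℝ) ≤ 2 / ((R : ℝ) * (N : ℝ) ^ 2) by positivity)
    rwa [smul_smul, show 2 / ((R : ℝ) * (N : ℝ) ^ 2) * ((R : ℝ) * (N : ℝ) ^ 2 / 2) = 1 by field_simp,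
      one_smul] at h2
  · have h : star y * y ≤ (225 * N : ℝ) • (1 : F) := by
      rw [heq, hk]
      have hG : GW ≤ ((2 * (N : ℝ)) ^ 2 * (R : ℝ) ^ 2) • D.p2 := by
        refine (D.G_le_norm hx (wt N)).trans (hmono ?_)
        rw [habsw]
        exact mul_le_mul_of_nonneg_right (pow_le_pow_left₀ hs0 hs1 2) (by positivity)
      have h1 : YW ≤ ((2 * (N : ℝ)) ^ 2 * (R : ℝ) ^ 2 + (N : ℝ) ^ 2) • D.p2 := by
        rw [add_smul]
        refine hw_hi.trans (add_le_add hG (hmono ?_))
        have := sq_nonneg (N : ℝ)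
        linarith
      refine (smul_le_smul_of_nonneg_left h1 (by positivity)).trans ?_
      rw [smul_smul]
      refine (smul_le_smul_of_nonneg_left D.p2_le_one (by positivity)).trans
        (smul_le_smul_of_nonneg_right ?_ zero_le_one)
      rw [hR, div_mul_eq_mul_div, div_le_iff₀ (by positivity)]
      nlinarith [pow_pos (show (0:ℝ) < N by linarith) 3, pow_pos (show (0:ℝ) < N by linarith) 4]
    have h2 := CStarAlgebra.norm_le_norm_of_nonneg_of_le (star_mul_self_nonneg y) h
    rw [CStarRing.norm_star_mul_self, norm_smul (225 * (N : ℝ)) (1 : F), norm_one, mul_one,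
      Real.norm_of_nonneg (by positivity)] at h2
    refine (mul_self_le_mul_self_iff (norm_nonneg _) (by positivity)).2 (h2.trans_eq ?_)
    rw [mul_mul_mul_comm, Real.mul_self_sqrt (Nat.cast_nonneg _)]; ring
  · have hG := D.G_le (R := R) (M := M) hx (a := fun g => wt' N g - wt N g) (w := wt N)
      (b := endW N) (l := 2 / (N : ℝ)) (by positivity) (wt_nonneg hN) (endW_nonneg hN)
      (fun g hg => wt_diff hN hg)
    set Ga := D.G R M x (fun g => wt' N g - wt N g)
    set Yd := star (D.elem R M x fun g => wt' N g - wt N g) *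
      D.elem R M x fun g => wt' N g - wt N g
    have hG2 : Ga ≤ (4 / (N : ℝ) ^ 2) • GW + (728 * (R : ℝ)) • D.p2 := by
      have h := smul_le_smul_of_nonneg_left hG (show (0:ℝ) ≤ 1 / 2 by norm_num)
      rw [smul_add, smul_smul, smul_smul, smul_smul, smul_smul, show (1/2:ℝ) * 2 = 1 by norm_num,
        one_smul] at h
      refine h.trans (add_le_add (le_of_eq ?_) (hmono ?_))
      · congr 1; field_simp; ring
      · have hsq : (∑ g ∈ Finset.range M, wt N g) ^ 2 ≤ (2 * N) ^ 2 := pow_le_pow_left₀ hs0 hs1 2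
        have hb : (∑ g ∈ Finset.range M, endW N g) *
            (2 * (2 / (N : ℝ) * ∑ g ∈ Finset.range M, wt N g) + ∑ g ∈ Finset.range M, endW N g)
            ≤ 20 / N := by
          have h1 : 2 / (N : ℝ) * ∑ g ∈ Finset.range M, wt N g ≤ 4 :=
            (mul_le_mul_of_nonneg_left hs1 (by positivity)).trans_eq (by field_simp; ring)
          have h2 : 2 / (N : ℝ) ≤ 2 := by rw [div_le_iff₀ (by linarith)]; linarith
          calc _ ≤ (2 / (N : ℝ)) * 10 :=
                mul_le_mul hb1 (by linarith) (add_nonneg (by positivity) hb0) (by positivity)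
            _ = _ := by ring
        have hA : 2 / (N : ℝ) * (2 / N) * ((R : ℝ) * (∑ g ∈ Finset.range M, wt N g) ^ 2)
            ≤ 16 * R := by
          refine (mul_le_mul_of_nonneg_left (mul_le_mul_of_nonneg_left hsq hRpos.le)
            (by positivity)).trans_eq ?_
          field_simp; ring
        have hB : 3 * (R : ℝ) ^ 2 * ((∑ g ∈ Finset.range M, endW N g) *
            (2 * (2 / (N : ℝ) * ∑ g ∈ Finset.range M, wt N g) + ∑ g ∈ Finset.range M, endW N g))
            ≤ 1440 * R := by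
          refine (mul_le_mul_of_nonneg_left hb (by positivity)).trans_eq ?_
          rw [hR]; field_simp; ring
        linarith
    have herr2 : (∑ g ∈ Finset.range M, |wt' N g - wt N g|) ^ 2 * (2 * (R : ℝ) ^ 4 / n) ≤ R := by
      have h1 : 2 * (R : ℝ) ^ 4 / n ≤ 1 / 50 := by rw [div_le_iff₀ hn']; linarith
      calc _ ≤ (6 : ℝ) ^ 2 * (1 / 50) :=
            mul_le_mul (pow_le_pow_left₀ (Finset.sum_nonneg fun g _ => abs_nonneg _) hdsum 2) h1
              (by positivity) (by positivity)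
        _ ≤ (R : ℝ) := by rw [hR]; nlinarith
    have hd2 : Yd ≤ (4 / (N : ℝ) ^ 2) • YW + (730 * (R : ℝ)) • D.p2 := by
      have h1 : GW ≤ YW + ((N : ℝ) ^ 2 / 12) • D.p2 :=
        (sub_le_iff_le_add.1 hw_lo).trans (add_le_add le_rfl (hmono herr))
      refine (hd_hi.trans (add_le_add hG2 (hmono herr2))).trans ?_
      refine (add_le_add (add_le_add (smul_le_smul_of_nonneg_left h1 (by positivity)) le_rfl) le_rfl).trans ?_
      rw [smul_add, smul_smul, add_assoc, add_assoc, ← add_smul, ← add_smul]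
      refine add_le_add le_rfl (hmono ?_)
      rw [show 4 / (N : ℝ) ^ 2 * ((N : ℝ) ^ 2 / 12) = 1 / 3 by field_simp; ring]
      rw [hR]; linarith
    rw [heq, heq]
    refine (smul_le_smul_of_nonneg_left hd2 (mul_self_nonneg κ)).trans ?_
    rw [smul_add, smul_add, smul_smul, smul_smul, smul_smul, add_comm]
    refine add_le_add ?_ ?_
    · refine (smul_le_smul_of_nonneg_left D.p2_le_one (by positivity)).trans
        (smul_le_smul_of_nonneg_right ?_ zero_le_one)
      rw [hk, div_mul_eq_mul_div, div_le_iff₀ (by positivity)]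
      field_simp
      nlinarith
    · refine smul_le_smul_of_nonneg_right ?_ (star_mul_self_nonneg _)
      rw [mul_comm (κ * κ)]
      refine mul_le_mul_of_nonneg_right ?_ (mul_self_nonneg κ)
      rw [div_mul_div_comm, ← sq (N : ℝ)]
      exact div_le_div_of_nonneg_right (by norm_num) (by positivity)

theorem rowTarget : RowTarget := by
  intro ε hε
  set N : ℕ := max 156 ⌈(5304 / ε) ^ 2⌉₊ with hNdef
  have hN : 156 ≤ N := le_max_left _ _
  refine ⟨100 * (24 * N) ^ 4, by positivity, ?_⟩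
  intro F _ σ t _ht hσt s s' e x hs hs' he hstar hstar' hns hns' hnx hcomm hs's hs'x hex hsq κ U hU
    hUs hUe
  rcases subsingleton_or_nontrivial F with h | h
  · exact ⟨0, zero_mem _, by simp, by simp [hε.le], Subsingleton.elim _ _, Subsingleton.elim _ _,
      Subsingleton.elim _ _, ⟨0, Subsingleton.elim _ _⟩, fun _ _ => Subsingleton.elim _ _⟩
  let _ : PartialOrder F := CStarAlgebra.spectralOrder F
  have : StarOrderedRing F := CStarAlgebra.spectralOrderedRing F
  have hmaps : ∀ z ∈ Cl t, σ z ∈ Cl t := by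
    have hle : Cl t ≤ StarSubalgebra.comap σ.toStarAlgHom (Cl t) := by
      refine StarSubalgebra.topologicalClosure_minimal (StarAlgebra.adjoin_le fun z hz => ?_) ?_
      · show σ z ∈ Cl t
        exact StarSubalgebra.le_topologicalClosure _ (StarAlgebra.subset_adjoin ℂ t
          (hσt ▸ ⟨z, hz, rfl⟩))
      · exact (isClosed_Cl t).preimage (StarAlgEquiv.isometry σ).continuous
    exact fun z hz => hle hz
  let xs : ℕ → Cl t := fun g => Nat.rec (motive := fun _ => Cl t) x
    (fun _ z => ⟨σ (z : F), hmaps _ z.2⟩) g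
  have hxs : ∀ g, ((xs (g + 1) : Cl t) : F) = σ ((xs g : Cl t) : F) := fun g => rfl
  let D : Row.Data (Cl t) F (100 * (24 * N) ^ 4) :=
    { hom := κ.hom, comm := κ.comm, s := s, s' := s', e := e, U := U
      star_s := Subtype.ext hstar, star_s' := Subtype.ext hstar'
      norm_s := hns, norm_s' := hns', comm_ss' := hcomm, s'_s := hs's
      U_s := fun i j => (hUs i j).1, U_s' := fun i j => (hUs i j).2, U_e := hUe }
  have hgood : ∀ g, D.Good (xs g) := by
    intro g
    induction g with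
    | zero => exact ⟨hnx, hs'x, hex, hsq⟩
    | succ g ih =>
      refine ⟨?_, Subtype.ext ?_, Subtype.ext ?_, Subtype.ext ?_⟩
      · refine le_of_eq_of_le ?_ ih.norm
        exact StarAlgEquiv.norm_map σ _
      · have h := congrArg (fun z : Cl t => σ (z : F)) ih.s'_x
        simp only [MulMemClass.coe_mul, ZeroMemClass.coe_zero, map_zero, map_mul] at h ⊢
        simpa [D, hxs, hs'] using h
      · have h := congrArg (fun z : Cl t => σ (z : F)) ih.e_x
        simp only [MulMemClass.coe_mul, map_mul] at h ⊢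
        simpa [D, hxs, he] using h
      · have h := congrArg (fun z : Cl t => σ (z : F)) ih.sq_x
        simp only [MulMemClass.coe_mul, StarMemClass.coe_star, map_mul, map_star] at h ⊢
        simpa [D, hxs, hs] using h
  have hhom : ∀ i g, σ (D.hom i (xs g)) = D.hom i (xs (g + 1)) := fun i g =>
    κ.equiv i _ _ (hxs g).symm
  have hbig : σ (D.big D.s) = D.big D.s := map_prodS σ _ _ (fun i => κ.equiv i _ _ hs) _
  have hrow : ∀ g, σ (D.row (24 * N) (xs g)) = D.row (24 * N) (xs (g + 1)) := by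
    intro g
    rw [Row.Data.row, Row.Data.row, map_sum]
    refine Finset.sum_congr rfl fun r _ => ?_
    rw [map_sum]
    refine Finset.sum_congr rfl fun S _ => ?_
    have hhead : σ (D.head S) = D.head S := by
      unfold Row.Data.head; split_ifs
      · exact hU _
      · exact map_zero σ
    rw [map_real_smul, Row.Data.term, Row.Data.term, map_mul, map_mul, hhead, hbig]
    congr 2
    congr 1
    exact map_prodS σ _ _ (fun i => hhom i g) S
  have helem : σ (D.elem (24 * N) (2 * (N * N) + 2) xs (wt N)) = D.elem (24 * N) (2 * (N * N) + 2) xs (wt' N) := by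
    rw [Row.Data.elem, Row.Data.elem, map_sum]
    simp only [map_real_smul, hrow]
    rw [Finset.sum_range_succ, Finset.sum_range_succ' (fun g => wt' N g • D.row (24 * N) (xs g))]
    have h1 : wt N (2 * (N * N) + 1) = 0 := by rw [wt, if_neg (by omega)]
    simp [h1, wt']
  obtain ⟨hlo, hB, hd⟩ := row_bounds D hgood (show 2 ≤ N by omega) le_rfl
  set c := Real.sqrt (2 / (((24 * N : ℕ) : ℝ) * (N : ℝ) ^ 2))
  set y₁ := c • D.elem (24 * N) (2 * (N * N) + 2) xs (wt N) with hy₁
  have hσy : σ y₁ = c • D.elem (24 * N) (2 * (N * N) + 2) xs (wt' N) := by rw [hy₁, map_real_smul, helem]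
  have hdiff : σ y₁ - y₁ = c • D.elem (24 * N) (2 * (N * N) + 2) xs fun g => wt' N g - wt N g := by
    rw [hσy, hy₁, ← smul_sub, Row.Data.elem, Row.Data.elem, Row.Data.elem, ← Finset.sum_sub_distrib]
    simp only [sub_smul]
  rw [← hdiff] at hd
  have hsqrt : 0 < Real.sqrt (N : ℝ) := Real.sqrt_pos.2 (by exact_mod_cast (show 0 < N by omega))
  have hN39 : 39 / (N : ℝ) ≤ 1 / 4 := by
    rw [div_le_iff₀ (by positivity)]
    have : (156 : ℝ) ≤ N := by exact_mod_cast hN
    linarith
  have hlist : ∀ z : Cl t, (List.ofFn fun i => κ.hom i z).prod = D.big z := fun z =>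
    prodS_univ_eq_list.symm
  have hy₁s' : y₁ * D.big D.s' = y₁ := by rw [hy₁, smul_mul_assoc, D.elem_big_s']
  have hs'y₁ : D.big D.s' * y₁ = 0 := by rw [hy₁, mul_smul_comm, D.big_s'_elem hgood, smul_zero]
  have hstarb : star (D.big D.s') = D.big D.s' := D.star_big D.star_s'
  have ha : Commute (star y₁ * y₁) (D.big D.s') := by
    have h1 : D.big D.s' * star y₁ = star y₁ := by
      have h2 := congrArg star hy₁s'
      rwa [star_mul, hstarb] at h2
    show star y₁ * y₁ * D.big D.s' = D.big D.s' * (star y₁ * y₁)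
    rw [mul_assoc, hy₁s', ← mul_assoc, h1]
  refine ⟨nrm y₁, ?_, norm_nrm_le y₁, ?_, ?_, ?_, ?_, ?_, ?_⟩
  · set A := Cl ((⋃ i, Set.range (κ.hom i)) ∪ Set.range U)
    have hgen : ∀ z ∈ (⋃ i, Set.range (κ.hom i)) ∪ Set.range U, z ∈ A := fun z hz =>
      StarSubalgebra.le_topologicalClosure _ (StarAlgebra.subset_adjoin ℂ _ hz)
    have hpart : ∀ (z : Cl t) S, D.part z S ∈ A := fun z S =>
      prodS_mem A _ (fun i => hgen _ (Or.inl (Set.mem_iUnion.2 ⟨i, z, rfl⟩))) S
    have hy : y₁ ∈ A := by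
      rw [hy₁, ← Complex.coe_smul]
      refine SMulMemClass.smul_mem _ (sum_mem fun g _ => ?_)
      rw [← Complex.coe_smul]
      refine SMulMemClass.smul_mem _ (sum_mem fun r _ => sum_mem fun S _ => ?_)
      rw [← Complex.coe_smul]
      refine SMulMemClass.smul_mem _ ?_
      refine mul_mem (mul_mem ?_ (hpart _ _)) (hpart _ _)
      unfold Row.Data.head; split_ifs
      · exact hgen _ (Or.inr ⟨_, rfl⟩)
      · exact zero_mem A
    exact mul_mem hy (isr_mem _ (mul_mem (star_mem hy) hy))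
  · rw [map_nrm]
    refine (norm_nrm_sub_le (B := 15 * Real.sqrt N) (η := 39 / (N : ℝ)) (by positivity) hN39 hB
      (by rw [StarAlgEquiv.norm_map]; exact hB) hd).trans ?_
    have h1 : (1 : ℝ) ≤ Real.sqrt N := Real.one_le_sqrt.2 (by exact_mod_cast (show 1 ≤ N by omega))
    calc 39 / (N : ℝ) * (1 + 9 * (15 * Real.sqrt N)) ≤ 39 / (N : ℝ) * (136 * Real.sqrt N) :=
          mul_le_mul_of_nonneg_left (by linarith) (by positivity)
      _ = 5304 / Real.sqrt N := by
          field_simp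
          rw [Real.sq_sqrt (Nat.cast_nonneg _)]
          ring
      _ ≤ ε := by
          rw [div_le_iff₀ hsqrt, ← div_le_iff₀' hε, Real.le_sqrt' (by positivity)]
          exact (Nat.le_ceil _).trans (by exact_mod_cast le_max_right _ _)
  · have hp : nrm y₁ * D.big D.s' = nrm y₁ := by
      rw [nrm, mul_assoc, (isr_commute ha).eq, ← mul_assoc, hy₁s']
    have hq : D.big D.s' * nrm y₁ = 0 := by rw [nrm, ← mul_assoc, hs'y₁, zero_mul]
    calc nrm y₁ * nrm y₁ = nrm y₁ * D.big D.s' * nrm y₁ := by rw [hp]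
      _ = 0 := by rw [mul_assoc, hq, mul_zero]
  · rw [hlist, nrm, mul_assoc, show D.big s' = D.big D.s' from rfl, (isr_commute ha).eq,
      ← mul_assoc, hy₁s']
  · rw [hlist, nrm, ← mul_assoc, show D.big s' = D.big D.s' from rfl, hs'y₁, zero_mul]
  · rw [hlist]
    have h := half_le_star_nrm_mul_nrm y₁ D.p2_nonneg D.p2_le_one hlo
    exact CStarAlgebra.nonneg_iff_eq_star_mul_self.1 (sub_nonneg.2 h)
  · intro P hP
    rw [nrm, ← mul_assoc, hy₁, mul_smul_comm, D.fix_elem hgood _ hP]

end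

end Vale.Agent.P095.Amen
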